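import Vale.Agent.P031.Assembly.Estimates

/-! Size bounds for the good and boundary cofactors. -/

open Finset Filter
open scoped Topology

noncomputable section

namespace P031.Assembly

theorem eventually_exp_le (C M : ℝ) {b a δ : ℝ} (hb : 0 < b) (ha : 0 < a) (hδ : 0 < δ) :
    ∀ᶠ T : ℕ in atTop,
      M * Real.exp (C * Real.log ((T : ℝ) + 3) ^ 2 - b * (T : ℝ) ^ a) ≤ δ := by
  filter_upwards [eventually_decay C (Real.log (δ / (|M| + 1))) hb ha] with T hT
  have hd : 0 < δ / (|M| + 1) := by positivity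
  have h1 : Real.exp (C * Real.log ((T : ℝ) + 3) ^ 2 - b * (T : ℝ) ^ a) ≤ δ / (|M| + 1) := by
    rw [← Real.exp_log hd]
    exact Real.exp_le_exp.2 hT
  calc M * Real.exp (C * Real.log ((T : ℝ) + 3) ^ 2 - b * (T : ℝ) ^ a)
      ≤ (|M| + 1) * (δ / (|M| + 1)) :=
        (mul_le_mul_of_nonneg_right (by linarith [le_abs_self M])
          (Real.exp_nonneg _)).trans (mul_le_mul_of_nonneg_left h1 (by positivity))
    _ = δ := by field_simp

/-- A power of `T` is below an exponential of a squared logarithm. -/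
theorem pow_le_exp_logT (T k : ℕ) :
    ((T : ℝ) + 3) ^ k ≤ Real.exp ((k : ℝ) * Real.log ((T : ℝ) + 3) ^ 2) := by
  have h := one_le_logT T
  calc ((T : ℝ) + 3) ^ k = Real.exp ((k : ℝ) * Real.log ((T : ℝ) + 3)) := by
        rw [Real.exp_nat_mul, Real.exp_log (by positivity)]
    _ ≤ _ := Real.exp_le_exp.2 (mul_le_mul_of_nonneg_left (by nlinarith) (Nat.cast_nonneg k))

theorem natCast_le_exp_logT (T : ℕ) : (T : ℝ) ≤ Real.exp (Real.log ((T : ℝ) + 3) ^ 2) := by
  have := pow_le_exp_logT T 1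
  simp only [pow_one, Nat.cast_one, one_mul] at this
  linarith

theorem Kmax_le (T : ℕ) :
    (Kmax T : ℝ) ≤ 1001 * Real.exp (Real.log ((T : ℝ) + 3) ^ 2) := by
  have h := one_le_logT T
  have h1 := (Nat.ceil_lt_add_one
    (show (0 : ℝ) ≤ 1000 * Real.log ((T : ℝ) + 3) ^ 2 by positivity)).le
  have h2 := Real.add_one_le_exp (Real.log ((T : ℝ) + 3) ^ 2)
  have h3 : (1 : ℝ) ≤ Real.log ((T : ℝ) + 3) ^ 2 := by nlinarith
  unfold Kmax
  linarith

theorem cutoff_le_sqrt (T : ℕ) : (cutoff T : ℝ) ≤ Real.sqrt T :=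
  Real.nat_sqrt_le_real_sqrt

theorem eventually_cutoff_le {c : ℝ} (hc : 0 < c) :
    ∀ᶠ T : ℕ in atTop, (cutoff T : ℝ) ≤ c * T := by
  filter_upwards [tendsto_natCast_atTop_atTop.eventually (eventually_ge_atTop ((1 / c) ^ 2))]
    with T hT
  have h1 : 1 / c ≤ Real.sqrt T := Real.le_sqrt_of_sq_le hT
  rw [div_le_iff₀ hc] at h1
  have h2 := cutoff_le_sqrt T
  nlinarith [Real.mul_self_sqrt (Nat.cast_nonneg T : (0 : ℝ) ≤ T), Real.sqrt_nonneg (T : ℝ)]

theorem eventually_eps_mul :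
    ∀ᶠ T : ℕ in atTop, (T : ℝ) ^ ((7 : ℝ) / 8) / 2 ≤ eps T * T ∧ eps T ≤ 1 / 20 := by
  have h1 : ∀ᶠ T : ℕ in atTop, (20 : ℝ) ≤ ((T : ℝ) + 1) ^ ((1 : ℝ) / 8) :=
    ((tendsto_rpow_atTop (by norm_num : (0 : ℝ) < 1 / 8)).comp
      (tendsto_atTop_add_const_right _ 1 tendsto_natCast_atTop_atTop)).eventually
      (eventually_ge_atTop 20)
  filter_upwards [h1, Filter.eventually_ge_atTop 1] with T hT hT1
  have h2 : (1 : ℝ) ≤ T := by exact_mod_cast hT1
  have he : eps T = (((T : ℝ) + 1) ^ ((1 : ℝ) / 8))⁻¹ := by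
    rw [eps, ← Real.rpow_neg (by linarith)]
    norm_num
  have hpos : 0 < ((T : ℝ) + 1) ^ ((1 : ℝ) / 8) := by linarith
  refine ⟨?_, by rw [he, ← one_div]; gcongr⟩
  have h3 : ((T : ℝ) + 1) ^ ((1 : ℝ) / 8) ≤ 2 * (T : ℝ) ^ ((1 : ℝ) / 8) := by
    calc ((T : ℝ) + 1) ^ ((1 : ℝ) / 8) ≤ (2 * (T : ℝ)) ^ ((1 : ℝ) / 8) :=
          Real.rpow_le_rpow (by linarith) (by linarith) (by norm_num)
      _ = (2 : ℝ) ^ ((1 : ℝ) / 8) * (T : ℝ) ^ ((1 : ℝ) / 8) :=
          Real.mul_rpow (by norm_num) (by linarith)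
      _ ≤ _ := by
          refine mul_le_mul_of_nonneg_right ?_ (Real.rpow_nonneg (by linarith) _)
          exact (Real.rpow_le_rpow_of_exponent_le (by norm_num)
            (by norm_num : (1 : ℝ) / 8 ≤ 1)).trans_eq (Real.rpow_one 2)
  rw [he, ← div_eq_inv_mul, le_div_iff₀ hpos]
  calc (T : ℝ) ^ ((7 : ℝ) / 8) / 2 * ((T : ℝ) + 1) ^ ((1 : ℝ) / 8)
      ≤ (T : ℝ) ^ ((7 : ℝ) / 8) / 2 * (2 * (T : ℝ) ^ ((1 : ℝ) / 8)) :=
        mul_le_mul_of_nonneg_left h3 (by positivity)
    _ = (T : ℝ) ^ ((7 : ℝ) / 8) * (T : ℝ) ^ ((1 : ℝ) / 8) := by ring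
    _ = (T : ℝ) := by rw [← Real.rpow_add (by linarith)]; norm_num

theorem eventually_lowLog :
    ∀ᶠ T : ℕ in atTop, Real.exp (2 * (cutoff T : ℝ)) ≤ Real.exp (T : ℝ) / 1000 := by
  filter_upwards [eventually_cutoff_le (show (0 : ℝ) < 1 / 4 by norm_num),
    (Real.tendsto_exp_atTop.comp
      (tendsto_natCast_atTop_atTop.atTop_div_const (show (0 : ℝ) < 2 by norm_num))).eventually
      (eventually_ge_atTop 1000)] with T hT hT2
  simp only [Function.comp] at hT2
  rw [le_div_iff₀ (by norm_num)]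
  calc Real.exp (2 * (cutoff T : ℝ)) * 1000
      ≤ Real.exp ((T : ℝ) / 2) * Real.exp ((T : ℝ) / 2) :=
        mul_le_mul (Real.exp_le_exp.2 (by linarith)) hT2 (by norm_num) (Real.exp_nonneg _)
    _ = _ := by rw [← Real.exp_add]; ring_nf

theorem log_high_le {T n : ℕ} {θ : ℝ} (F : Finset ℕ) (hF : F ⊆ high n (cutoff T))
    (hc : (high n (cutoff T)).card ≤ Kmax T) (hθ : ∀ p ∈ F, (cell p : ℝ) ≤ θ) :
    ∑ p ∈ F, Real.log p ≤ (Kmax T : ℝ) * Real.exp (θ + 1) := by
  calc ∑ p ∈ F, Real.log p ≤ ∑ _p ∈ F, Real.exp (θ + 1) := by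
        refine Finset.sum_le_sum fun p hp => ?_
        have hp2 := (Nat.prime_of_mem_primeFactors (Finset.mem_filter.1 (hF hp)).1).two_le
        exact (log_lt_of_cell_le hp2 le_rfl).le.trans
          (Real.exp_le_exp.2 (by linarith [hθ p hp]))
    _ = (F.card : ℝ) * Real.exp (θ + 1) := by rw [Finset.sum_const, nsmul_eq_mul]
    _ ≤ _ := by
        refine mul_le_mul_of_nonneg_right ?_ (Real.exp_nonneg _)
        exact_mod_cast (Finset.card_le_card hF).trans hc

theorem eventually_good_log :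
    ∀ᶠ T : ℕ in atTop, ∀ n : ℕ, Good T n → Real.log n ≤ Real.exp (T : ℝ) / 8 := by
  filter_upwards [eventually_lowLog, eventually_eps_mul,
    eventually_exp_le 1 (1001 * Real.exp 1) (show (0 : ℝ) < 1 / 2 by norm_num)
      (show (0 : ℝ) < 7 / 8 by norm_num) (show (0 : ℝ) < 1 / 10 by norm_num)]
    with T hlow heps hdec n hn
  obtain ⟨hpos, hexc, -, hcell⟩ := hn
  have hc : (high n (cutoff T)).card ≤ Kmax T := by
    simp only [Exceptional, not_or, not_lt] at hexc
    exact hexc.2.1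
  have h1 := log_le_of_not_exceptional hpos.ne' hexc
  have h2 := log_high_le _ (Finset.Subset.refl _) hc
    (θ := (1 - eps T) * T) fun p hp => hcell p (Finset.mem_filter.1 hp).1
  have h3 : (Kmax T : ℝ) * Real.exp ((1 - eps T) * T + 1) ≤ Real.exp (T : ℝ) / 10 := by
    calc (Kmax T : ℝ) * Real.exp ((1 - eps T) * T + 1)
        ≤ 1001 * Real.exp (Real.log ((T : ℝ) + 3) ^ 2) *
          Real.exp ((T : ℝ) - 1 / 2 * (T : ℝ) ^ ((7 : ℝ) / 8) + 1) :=
          mul_le_mul (Kmax_le T) (Real.exp_le_exp.2 (by nlinarith [heps.1])) (Real.exp_nonneg _)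
            (by positivity)
      _ = 1001 * Real.exp 1 * Real.exp (1 * Real.log ((T : ℝ) + 3) ^ 2 -
            1 / 2 * (T : ℝ) ^ ((7 : ℝ) / 8)) * Real.exp (T : ℝ) := by
          simp only [sub_eq_add_neg, Real.exp_add, one_mul]
          ring
      _ ≤ 1 / 10 * Real.exp (T : ℝ) := mul_le_mul_of_nonneg_right hdec (Real.exp_nonneg _)
      _ = _ := by ring
  linarith [Real.exp_pos (T : ℝ)]

/-- The good values at level `T`. -/
def allGood (T : ℕ) : Finset ℕ := by
  classical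
  exact ((Finset.range (⌈Real.exp (Real.exp (T : ℝ))⌉₊ + 1)).filter (Good T)).image Nat.totient

theorem valuesOf_allGood (T : ℕ) : ValuesOf (Good T) (allGood T) := by
  intro v hv
  simp only [allGood, Finset.mem_image, Finset.mem_filter] at hv
  obtain ⟨n, ⟨-, hn⟩, rfl⟩ := hv
  exact ⟨n, hn, rfl⟩

theorem eventually_mem_allGood :
    ∀ᶠ T : ℕ in atTop, ∀ n : ℕ, Good T n → Nat.totient n ∈ allGood T := by
  filter_upwards [eventually_good_log] with T hT n hn
  simp only [allGood, Finset.mem_image, Finset.mem_filter, Finset.mem_range]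
  refine ⟨n, ⟨?_, hn⟩, rfl⟩
  have h1 := hT n hn
  have h2 : (n : ℝ) ≤ Real.exp (Real.exp (T : ℝ)) :=
    (Real.log_le_iff_le_exp (by exact_mod_cast hn.1)).1 (by linarith [Real.exp_pos (T : ℝ)])
  have h3 : n ≤ ⌈Real.exp (Real.exp (T : ℝ))⌉₊ := by
    exact_mod_cast h2.trans (Nat.le_ceil _)
  omega

theorem good_one {T : ℕ} (h : eps T ≤ 1 / 20) : Good T 1 := by
  have h2 : 0 ≤ (1 - eps T) * (T : ℝ) := mul_nonneg (by linarith) (Nat.cast_nonneg T)
  refine ⟨one_pos, ?_, ?_, by simp⟩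
  · simp [Exceptional, high, lowPart, Real.exp_nonneg]
  · refine le_of_eq_of_le ?_ h2
    unfold topG gsum
    refine Finset.sum_eq_zero fun j _ => ?_
    have : rows (T ::ₘ profile 1 (cutoff T)) j ≤ 1 := by
      refine (Multiset.countP_le_card _ _).trans ?_
      simp [profile, high]
    rw [gfun, if_pos this]

theorem log_three_gt : (1.08 : ℝ) < Real.log 3 := by
  have h := Real.log_lt_log (by norm_num) (show (2 : ℝ) ^ 11 < 3 ^ 7 by norm_num)
  rw [Real.log_pow, Real.log_pow] at h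
  have := Real.log_two_gt_d9
  push_cast at h
  linarith

/-- A boundary cofactor has at most one prime of scale at least `9T/10`. -/
theorem eventually_one_top :
    ∀ᶠ T : ℕ in atTop, ∀ n : ℕ, topG T n ≤ (1 + eps T) * T →
      ((high n (cutoff T)).filter fun p => 9 * T ≤ 10 * cell p).card ≤ 1 := by
  filter_upwards [eventually_eps_mul, eventually_cutoff_le (show (0 : ℝ) < 1 / 100 by norm_num),
    Filter.eventually_ge_atTop 1000] with T heps hS hT n htop
  by_contra hc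
  push Not at hc
  have hrow : ∀ j, 10 * j < 9 * T → 3 ≤ rows (T ::ₘ profile n (cutoff T)) j := by
    intro j hj
    rw [rows, Multiset.countP_cons, if_pos (by omega)]
    have : 2 ≤ Multiset.countP (fun t => j ≤ t) (profile n (cutoff T)) := by
      refine le_trans hc ?_
      rw [profile, Multiset.countP_map]
      exact Multiset.card_le_card (Multiset.monotone_filter_right _ fun p hp => by omega)
    omega
  have h3 : gfun 3 = 3 * Real.log 3 - 2 := by norm_num [gfun]; ring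
  set θ := 9 * T / 10 with hθ
  have h4 : ((θ : ℝ) - cutoff T) * gfun 3 ≤ topG T n := by
    calc ((θ : ℝ) - cutoff T) * gfun 3
        ≤ (((Finset.Ico (cutoff T) θ).card : ℕ) : ℝ) * gfun 3 := by
          refine mul_le_mul_of_nonneg_right ?_ (gfun_nonneg 3)
          rw [Nat.card_Ico]
          have : θ ≤ θ - cutoff T + cutoff T := le_tsub_add
          have : (θ : ℝ) ≤ ((θ - cutoff T : ℕ) : ℝ) + cutoff T := by exact_mod_cast this
          linarith
      _ = ∑ _j ∈ Finset.Ico (cutoff T) θ, gfun 3 := by rw [Finset.sum_const, nsmul_eq_mul]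
      _ ≤ ∑ j ∈ Finset.Ico (cutoff T) θ, gfun (rows (T ::ₘ profile n (cutoff T)) j) :=
          Finset.sum_le_sum fun j hj => gfun_mono (hrow j (by
            have := (Finset.mem_Ico.1 hj).2
            omega))
      _ ≤ _ := Finset.sum_le_sum_of_subset_of_nonneg
          (Finset.Ico_subset_Ico_right (by omega)) fun j _ _ => gfun_nonneg _
  have hTr : (1000 : ℝ) ≤ T := by exact_mod_cast hT
  have h5 : (9 : ℝ) * T ≤ 10 * θ + 9 := by
    have : 9 * T ≤ 10 * θ + 9 := by omega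
    exact_mod_cast this
  rw [h3] at h4
  have h6 := log_three_gt
  nlinarith [heps.2]

theorem eventually_mid_log :
    ∀ᶠ T : ℕ in atTop, ∀ n : ℕ, 0 < n → ¬ Exceptional T n → topG T n ≤ (1 + eps T) * T →
      ∀ B : ℝ, 0 ≤ B → (∀ q ∈ n.primeFactors, Real.log q ≤ B) →
        Real.log n ≤ B + Real.exp (T : ℝ) / 50 := by
  filter_upwards [eventually_one_top, eventually_lowLog,
    eventually_exp_le 1 (1001 * Real.exp 1) (show (0 : ℝ) < 1 / 10 by norm_num)
      (show (0 : ℝ) < 1 by norm_num) (show (0 : ℝ) < 1 / 100 by norm_num)]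
    with T hone hlow hdec n hn hexc htop B hB hq
  have hc : (high n (cutoff T)).card ≤ Kmax T := by
    have := hexc
    simp only [Exceptional, not_or, not_lt] at this
    exact this.2.1
  have h1 := log_le_of_not_exceptional hn.ne' hexc
  rw [← Finset.sum_filter_add_sum_filter_not (high n (cutoff T))
    (fun p => 9 * T ≤ 10 * cell p)] at h1
  have h2 : ∑ p ∈ (high n (cutoff T)).filter (fun p => 9 * T ≤ 10 * cell p), Real.log p ≤ B := by
    rcases (Nat.le_one_iff_eq_zero_or_eq_one.1 (hone n htop)) with h0 | h0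
    · rw [Finset.card_eq_zero.1 h0, Finset.sum_empty]
      exact hB
    · obtain ⟨q, hqe⟩ := Finset.card_eq_one.1 h0
      rw [hqe, Finset.sum_singleton]
      have : q ∈ (high n (cutoff T)).filter fun p => 9 * T ≤ 10 * cell p :=
        hqe ▸ Finset.mem_singleton_self q
      exact hq q (Finset.mem_filter.1 (Finset.mem_filter.1 this).1).1
  have h3 := log_high_le _ (Finset.filter_subset (fun p => ¬ 9 * T ≤ 10 * cell p) _) hc
    (θ := (T : ℝ) * (9 / 10)) fun p hp => by
      have h := (Finset.mem_filter.1 hp).2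
      have : (10 : ℝ) * cell p ≤ 9 * T := by exact_mod_cast (le_of_not_ge h)
      linarith
  have h4 : (Kmax T : ℝ) * Real.exp ((T : ℝ) * (9 / 10) + 1) ≤ Real.exp (T : ℝ) / 100 := by
    calc (Kmax T : ℝ) * Real.exp ((T : ℝ) * (9 / 10) + 1)
        ≤ 1001 * Real.exp (Real.log ((T : ℝ) + 3) ^ 2) *
          Real.exp ((T : ℝ) - 1 / 10 * (T : ℝ) ^ (1 : ℝ) + 1) :=
          mul_le_mul (Kmax_le T)
            (Real.exp_le_exp.2 (by rw [Real.rpow_one]; linarith)) (Real.exp_nonneg _) (by positivity)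
      _ = 1001 * Real.exp 1 * Real.exp (1 * Real.log ((T : ℝ) + 3) ^ 2 -
            1 / 10 * (T : ℝ) ^ (1 : ℝ)) * Real.exp (T : ℝ) := by
          simp only [sub_eq_add_neg, Real.exp_add, one_mul]
          ring
      _ ≤ 1 / 100 * Real.exp (T : ℝ) := mul_le_mul_of_nonneg_right hdec (Real.exp_nonneg _)
      _ = _ := by ring
  linarith [Real.exp_pos (T : ℝ)]

end P031.Assembly
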