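import Vale.Agent.P031.Statements
import Vale.Agent.P031.Assembly.Good

/-! The negligible classes of totients and the basic counts. -/

open Finset Filter
open scoped Topology

noncomputable section

namespace P031.Assembly

/-- The totient values up to `y`, as a finite set. -/
def totVals (y : ℝ) : Finset ℕ := by
  classical
  exact (Finset.Icc 1 ⌊y⌋₊).filter fun v => ∃ n : ℕ, 1 ≤ n ∧ Nat.totient n = v

theorem mem_totVals {y : ℝ} {v : ℕ} :
    v ∈ totVals y ↔ (v : ℝ) ≤ y ∧ ∃ n : ℕ, 1 ≤ n ∧ Nat.totient n = v := by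
  simp only [totVals, Finset.mem_filter, Finset.mem_Icc]
  constructor
  · rintro ⟨⟨h1, h2⟩, h3⟩
    exact ⟨(Nat.le_floor_iff' (by omega)).1 h2, h3⟩
  · rintro ⟨h1, n, hn, rfl⟩
    exact ⟨⟨Nat.totient_pos.2 hn, Nat.le_floor h1⟩, n, hn, rfl⟩

theorem V_eq_card (y : ℝ) : V y = (totVals y).card := by
  rw [V, ← Set.ncard_coe_finset]
  congr 1
  ext v
  exact mem_totVals.symm

theorem eventually_log_large (M : ℝ) :
    ∀ᶠ T : ℕ in atTop, ∀ y : ℝ, InRange T y → M ≤ Real.log y := by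
  filter_upwards [(Real.tendsto_exp_atTop.comp tendsto_natCast_atTop_atTop).eventually
    (eventually_ge_atTop M)] with T hT y hy
  exact le_trans hT (inRange_log hy).1

/-- Values below `y / (log y)^2` are negligible. -/
theorem count_small {δ : ℝ} (hδ : 0 < δ) :
    ∀ᶠ T : ℕ in atTop, ∀ y : ℝ, InRange T y → ∀ F : Finset ℕ,
      (∀ v ∈ F, (v : ℝ) ≤ y / Real.log y ^ 2) → (F.card : ℝ) ≤ δ * (y / Real.log y) := by
  filter_upwards [eventually_log_large (max (8 / δ) 1)] with T hT y hy F hF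
  have hL := hT y hy
  have hL1 : 1 ≤ Real.log y := le_trans (le_max_right _ _) hL
  have hL2 : 8 / δ ≤ Real.log y := le_trans (le_max_left _ _) hL
  rw [div_le_iff₀ hδ] at hL2
  obtain ⟨-, -, hy2⟩ := inRange_log hy
  have hz : 0 ≤ y / Real.log y ^ 2 := by positivity
  have h1 : F ⊆ Finset.range (⌊y / Real.log y ^ 2⌋₊ + 1) := fun v hv =>
    Finset.mem_range.2 (Nat.lt_succ_of_le (Nat.le_floor (hF v hv)))
  have h2 : (F.card : ℝ) ≤ (⌊y / Real.log y ^ 2⌋₊ : ℝ) + 1 := by
    have := Finset.card_le_card h1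
    rw [Finset.card_range] at this
    exact_mod_cast this
  have h4 : Real.log y ^ 2 ≤ 4 * y := by
    have h5 : Real.log y ≤ 2 * Real.sqrt y := by
      have := Real.log_le_sub_one_of_pos (Real.sqrt_pos.2 (show 0 < y by linarith))
      rw [Real.log_sqrt (by linarith)] at this
      linarith
    nlinarith [Real.mul_self_sqrt (show 0 ≤ y by linarith), Real.sqrt_nonneg y]
  have h6 : (1 : ℝ) ≤ 4 * (y / Real.log y ^ 2) := by
    rw [← mul_div_assoc, le_div_iff₀ (by positivity)]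
    linarith
  calc (F.card : ℝ) ≤ 5 * (y / Real.log y ^ 2) := by
        linarith [Nat.floor_le hz]
    _ = 5 / Real.log y * (y / Real.log y) := by field_simp
    _ ≤ δ * (y / Real.log y) := by
        refine mul_le_mul_of_nonneg_right ?_ (by positivity)
        rw [div_le_iff₀ (by linarith)]
        linarith

/-- Values with a smooth preimage are negligible. -/
theorem count_smooth (hS : SmoothStatement) {δ : ℝ} (hδ : 0 < δ) :
    ∀ᶠ T : ℕ in atTop, ∀ y : ℝ, InRange T y → ∀ F : Finset ℕ,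
      (∀ v ∈ F, ∃ n : ℕ, n ≠ 0 ∧ Nat.totient n = v ∧ (v : ℝ) ≤ y ∧
        ∀ q ∈ n.primeFactors, (T : ℝ) ^ 4 * Real.log q < Real.log y) →
      (F.card : ℝ) ≤ δ * (y / Real.log y) := by
  classical
  obtain ⟨C, hC, hS⟩ := hS
  filter_upwards [eventually_exp_le 0 (C * 24 * 12 ^ 8 * Real.exp 20)
      (show (0 : ℝ) < 1 / 8 by norm_num) (show (0 : ℝ) < 4 by norm_num) hδ,
    eventually_exp_le 4 2 (show (0 : ℝ) < 1 by norm_num) one_pos one_pos,
    Filter.eventually_ge_atTop 5]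
    with T hdec hbig hT4 y hy F hF
  obtain ⟨hL1, hL2, hy2⟩ := inRange_log hy
  have hT : (5 : ℝ) ≤ T := by exact_mod_cast hT4
  set L := Real.log y with hLdef
  have hL4 : 6 ≤ L := by linarith [Real.add_one_le_exp (T : ℝ)]
  have hT4pos : (0 : ℝ) < (T : ℝ) ^ 4 := by positivity
  set X := y * (4 * L + 20) with hX
  set Y := Real.exp (L / (T : ℝ) ^ 4) with hY
  have hyX : y ≤ X := le_mul_of_one_le_right (by linarith) (by linarith)
  have hY2 : 2 ≤ Y := by
    refine le_trans ?_ (Real.add_one_le_exp _)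
    have h1 : (T : ℝ) ^ 4 * 2 ≤ Real.exp (T : ℝ) := by
      have h2 := pow_le_exp_logT T 4
      push_cast at h2
      have h3 : (T : ℝ) ^ 4 ≤ ((T : ℝ) + 3) ^ 4 := pow_le_pow_left₀ (by linarith) (by linarith) 4
      rw [Real.rpow_one, one_mul] at hbig
      calc (T : ℝ) ^ 4 * 2
          ≤ 2 * Real.exp (4 * Real.log ((T : ℝ) + 3) ^ 2) := by linarith
        _ = 2 * Real.exp (4 * Real.log ((T : ℝ) + 3) ^ 2 - (T : ℝ)) * Real.exp (T : ℝ) := by
            rw [mul_assoc, ← Real.exp_add, sub_add_cancel]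
        _ ≤ 1 * Real.exp (T : ℝ) := mul_le_mul_of_nonneg_right hbig (Real.exp_nonneg _)
        _ = _ := one_mul _
    have : 1 ≤ L / (T : ℝ) ^ 4 := by rw [le_div_iff₀ hT4pos]; linarith
    linarith
  have hYX : Y ≤ X := by
    refine le_trans ?_ hyX
    calc Y ≤ Real.exp L := Real.exp_le_exp.2
          (div_le_self (by linarith) (one_le_pow₀ (by linarith)))
      _ = y := Real.exp_log (by linarith)
  choose! m hm using hF
  have hinj : Set.InjOn m F := fun a ha b hb h => by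
    rw [← (hm a ha).2.1, ← (hm b hb).2.1, h]
  have hcard := hS X Y hY2 hYX (F.image m) (by
    intro n hn
    obtain ⟨v, hv, rfl⟩ := Finset.mem_image.1 hn
    obtain ⟨hne, hphi, hle, hsm⟩ := hm v hv
    refine ⟨Nat.pos_of_ne_zero hne, preimage_bound hne (by
      have h := (inRange_log hy).1
      have : y = Real.exp L := (Real.exp_log (by linarith)).symm
      linarith [Real.add_one_le_exp L]) (by rw [hphi]; exact hle), ?_⟩
    intro q hq
    have hq0 : (0 : ℝ) < q := by exact_mod_cast (Nat.prime_of_mem_primeFactors hq).pos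
    rw [hY, ← Real.log_le_iff_le_exp hq0, le_div_iff₀ hT4pos]
    linarith [hsm q hq])
  rw [Finset.card_image_of_injOn hinj] at hcard
  refine hcard.trans ?_
  have hlogY : Real.log Y = L / (T : ℝ) ^ 4 := Real.log_exp _
  have hlogX : Real.log X = L + Real.log (4 * L + 20) := Real.log_mul (by linarith) (by linarith)
  have h4 : 0 ≤ Real.log (4 * L + 20) := Real.log_nonneg (by linarith)
  have h5 : Real.log (4 * L + 20) ≤ 8 * L := by
    linarith [Real.log_le_sub_one_of_pos (show 0 < 4 * L + 20 by linarith)]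
  have he : Real.exp (-Real.log X / (4 * Real.log Y)) ≤ Real.exp (-((T : ℝ) ^ 4 / 4)) := by
    refine Real.exp_le_exp.2 ?_
    rw [hlogY, hlogX, neg_div, neg_le_neg_iff, le_div_iff₀ (by positivity)]
    have : (T : ℝ) ^ 4 / 4 * (4 * (L / (T : ℝ) ^ 4)) = L := by field_simp
    linarith
  have h6 : (Real.log X + 2) ^ 8 ≤ (12 * L) ^ 8 :=
    pow_le_pow_left₀ (by rw [hlogX]; linarith) (by rw [hlogX]; linarith) 8
  have h7 : L ^ 10 ≤ Real.exp (10 * (T : ℝ) + 20) := by
    calc L ^ 10 ≤ Real.exp ((T : ℝ) + 2) ^ 10 := pow_le_pow_left₀ (by linarith) hL2.le 10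
      _ = _ := by rw [← Real.exp_nat_mul]; ring_nf
  calc C * X * Real.exp (-Real.log X / (4 * Real.log Y)) * (Real.log X + 2) ^ 8
      ≤ C * (y * (24 * L)) * Real.exp (-((T : ℝ) ^ 4 / 4)) * (12 * L) ^ 8 := by
        refine mul_le_mul (mul_le_mul (mul_le_mul_of_nonneg_left ?_ hC.le) he (Real.exp_nonneg _)
          (by positivity)) h6 (by rw [hlogX]; positivity) (by positivity)
        exact mul_le_mul_of_nonneg_left (by linarith) (by linarith)
    _ = C * 24 * 12 ^ 8 * Real.exp (-((T : ℝ) ^ 4 / 4)) * L ^ 10 * (y / L) := by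
        field_simp
    _ ≤ δ * (y / L) := by
        refine mul_le_mul_of_nonneg_right ?_ (by positivity)
        calc C * 24 * 12 ^ 8 * Real.exp (-((T : ℝ) ^ 4 / 4)) * L ^ 10
            ≤ C * 24 * 12 ^ 8 * Real.exp (-((T : ℝ) ^ 4 / 4)) * Real.exp (10 * (T : ℝ) + 20) :=
              mul_le_mul_of_nonneg_left h7 (by positivity)
          _ = C * 24 * 12 ^ 8 * Real.exp 20 * Real.exp (10 * (T : ℝ) - (T : ℝ) ^ 4 / 4) := by
              simp only [sub_eq_add_neg, Real.exp_add]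
              ring
          _ ≤ C * 24 * 12 ^ 8 * Real.exp 20 *
              Real.exp (0 * Real.log ((T : ℝ) + 3) ^ 2 - 1 / 8 * (T : ℝ) ^ (4 : ℝ)) := by
              refine mul_le_mul_of_nonneg_left (Real.exp_le_exp.2 ?_) (by positivity)
              rw [show (4 : ℝ) = ((4 : ℕ) : ℝ) by norm_num, Real.rpow_natCast]
              push_cast
              have : (125 : ℝ) ≤ (T : ℝ) ^ 3 := by
                calc (125 : ℝ) = 5 ^ 3 := by norm_num
                  _ ≤ _ := pow_le_pow_left₀ (by norm_num) hT 3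
              nlinarith
          _ ≤ δ := hdec

theorem card_multiples_le (d : ℕ) {y : ℝ} (hy : 0 ≤ y) (F : Finset ℕ)
    (hF : ∀ v ∈ F, 0 < v ∧ (v : ℝ) ≤ y ∧ d ∣ v) : (F.card : ℝ) ≤ y / d := by
  classical
  have h : F.card ≤ ⌊y⌋₊ / d := by
    rw [← Nat.Ioc_filter_dvd_card_eq_div]
    exact Finset.card_le_card fun v hv => Finset.mem_filter.2
      ⟨Finset.mem_Ioc.2 ⟨(hF v hv).1, Nat.le_floor (hF v hv).2.1⟩, (hF v hv).2.2⟩
  calc (F.card : ℝ) ≤ ((⌊y⌋₊ / d : ℕ) : ℝ) := by exact_mod_cast h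
    _ ≤ (⌊y⌋₊ : ℝ) / d := Nat.cast_div_le
    _ ≤ y / d := by gcongr; exact Nat.floor_le hy

/-- Values divisible by `p (p - 1)` for a large prime `p` are negligible. -/
theorem count_square {δ : ℝ} (hδ : 0 < δ) :
    ∀ᶠ T : ℕ in atTop, ∀ y : ℝ, InRange T y → ∀ F : Finset ℕ,
      (∀ v ∈ F, 0 < v ∧ (v : ℝ) ≤ y ∧
        ∃ p : ℕ, p.Prime ∧ Real.log y ≤ (T : ℝ) ^ 4 * Real.log p ∧ p * (p - 1) ∣ v) →
      (F.card : ℝ) ≤ δ * (y / Real.log y) := by
  classical
  filter_upwards [eventually_exp_le 8 4 (show (0 : ℝ) < 1 by norm_num) one_pos hδ,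
    eventually_exp_le 4 2 (show (0 : ℝ) < 1 by norm_num) one_pos one_pos,
    Filter.eventually_ge_atTop 4] with T hdec hbig hT4 y hy F hF
  obtain ⟨hL1, hL2, hy2⟩ := inRange_log hy
  rw [Real.rpow_one, one_mul] at hdec hbig
  have hT : (4 : ℝ) ≤ T := by exact_mod_cast hT4
  set L := Real.log y with hLdef
  have hT4pos : (0 : ℝ) < (T : ℝ) ^ 4 := by positivity
  have hL0 : 0 < L := lt_of_lt_of_le (Real.exp_pos _) hL1
  set z := L / (T : ℝ) ^ 4 with hz
  have hz2 : 2 ≤ z := by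
    rw [hz, le_div_iff₀ hT4pos]
    have h2 := pow_le_exp_logT T 4
    push_cast at h2
    have h3 : (T : ℝ) ^ 4 ≤ ((T : ℝ) + 3) ^ 4 := pow_le_pow_left₀ (by linarith) (by linarith) 4
    calc 2 * (T : ℝ) ^ 4 ≤ 2 * Real.exp (4 * Real.log ((T : ℝ) + 3) ^ 2) := by linarith
      _ = 2 * Real.exp (4 * Real.log ((T : ℝ) + 3) ^ 2 - (T : ℝ)) * Real.exp (T : ℝ) := by
          rw [mul_assoc, ← Real.exp_add, sub_add_cancel]
      _ ≤ 1 * Real.exp (T : ℝ) := mul_le_mul_of_nonneg_right hbig (Real.exp_nonneg _)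
      _ ≤ L := by linarith
  have hF' : ∀ v ∈ F, ∃ p : ℕ, 0 < v ∧ (v : ℝ) ≤ y ∧ p.Prime ∧
      L ≤ (T : ℝ) ^ 4 * Real.log p ∧ p * (p - 1) ∣ v := fun v hv => by
    obtain ⟨h0, h1, p, h2, h3, h4⟩ := hF v hv
    exact ⟨p, h0, h1, h2, h3, h4⟩
  choose! P hP using hF'
  set S := F.image P with hSdef
  set m := ⌈Real.exp z⌉₊ with hm
  have hge : ∀ p ∈ S, m ≤ p := by
    intro p hp
    obtain ⟨v, hv, rfl⟩ := Finset.mem_image.1 hp
    obtain ⟨h0, h1, hpp, hlog, hdvd⟩ := hP v hv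
    refine Nat.ceil_le.2 ((Real.le_log_iff_exp_le (by exact_mod_cast hpp.pos)).1 ?_)
    rw [hz, div_le_iff₀ hT4pos]
    linarith
  have hexpz : 3 ≤ Real.exp z := by linarith [Real.add_one_le_exp z]
  have hm2 : 2 ≤ m := by
    have : (2 : ℝ) ≤ m := le_trans (by linarith) (Nat.le_ceil _)
    exact_mod_cast this
  have hcard : (F.card : ℝ) ≤ ∑ p ∈ S, y * ((p : ℝ) * ((p : ℝ) - 1))⁻¹ := by
    rw [Finset.card_eq_sum_card_image P F]
    push_cast
    refine Finset.sum_le_sum fun p hp => ?_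
    have hp2 : 2 ≤ p := hm2.trans (hge p hp)
    refine le_trans (card_multiples_le (p * (p - 1)) (y := y) (by linarith) _ ?_) (le_of_eq ?_)
    · intro v hv
      obtain ⟨hv1, rfl⟩ := Finset.mem_filter.1 hv
      obtain ⟨h0, h1, hpp, hlog, hdvd⟩ := hP v hv1
      exact ⟨h0, h1, hdvd⟩
    · push_cast [Nat.cast_sub (show 1 ≤ p by omega)]
      rw [div_eq_mul_inv]
  rw [← Finset.mul_sum] at hcard
  refine hcard.trans ?_
  have h1 := sum_inv_mul_pred_le S hm2 hge
  have h2 : ((m : ℝ) - 1)⁻¹ ≤ 4 / z ^ 2 := by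
    have h3 : Real.exp z ≤ m := Nat.le_ceil _
    have h4 : z ^ 2 / 2 ≤ Real.exp z := by
      have := Real.quadratic_le_exp_of_nonneg (show 0 ≤ z by linarith)
      linarith
    rw [inv_eq_one_div, div_le_div_iff₀ (by linarith) (by positivity)]
    linarith
  calc y * ∑ p ∈ S, ((p : ℝ) * ((p : ℝ) - 1))⁻¹ ≤ y * (4 / z ^ 2) :=
        mul_le_mul_of_nonneg_left (h1.trans h2) (by linarith)
    _ = 4 * ((T : ℝ) ^ 8 / L) * (y / L) := by rw [hz]; field_simp
    _ ≤ δ * (y / L) := by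
        refine mul_le_mul_of_nonneg_right ?_ (by positivity)
        refine le_trans ?_ hdec
        refine mul_le_mul_of_nonneg_left ?_ (by norm_num)
        rw [Real.exp_sub]
        have h5 := pow_le_exp_logT T 8
        push_cast at h5
        exact div_le_div₀ (Real.exp_nonneg _)
          ((pow_le_pow_left₀ (by linarith) (by linarith) 8).trans h5) (Real.exp_pos _) hL1

/-- Primes `p` with `(p - 1) w ≤ y` and `ℓ ≤ log p`. -/
theorem count_primes {y ℓ : ℝ} {w : ℕ} (hy : 0 ≤ y) (hw : 1 ≤ w) (hℓ : 0 < ℓ) (F : Finset ℕ)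
    (hF : ∀ p ∈ F, p.Prime ∧ ((((p - 1) * w : ℕ)) : ℝ) ≤ y ∧ ℓ ≤ Real.log p) :
    (F.card : ℝ) ≤ 10 * (y / w) / ℓ := by
  have hw0 : (0 : ℝ) < w := by exact_mod_cast hw
  rcases F.eq_empty_or_nonempty with rfl | ⟨p0, hp0⟩
  · simp only [Finset.card_empty, Nat.cast_zero]
    positivity
  · have key : ∀ p ∈ F, (p : ℝ) - 1 ≤ y / w := fun p hp => by
      obtain ⟨hpp, h, -⟩ := hF p hp
      rw [le_div_iff₀ hw0]
      push_cast [Nat.cast_sub hpp.one_le] at h
      exact h
    obtain ⟨hpp, -, hlog⟩ := hF p0 hp0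
    have hp2 : (2 : ℝ) ≤ p0 := by exact_mod_cast hpp.two_le
    have h1 := key p0 hp0
    have hX : (2 : ℝ) ≤ y / w + 1 := by linarith
    have hlX : ℓ ≤ Real.log (y / w + 1) :=
      hlog.trans (Real.log_le_log (by linarith) (by linarith))
    refine (card_primes_le hX F fun p hp => ⟨(hF p hp).1, by linarith [key p hp]⟩).trans ?_
    exact div_le_div₀ (by linarith) (by linarith) hℓ hlX

/-- Abnormal primes `p` with `(p - 1) w ≤ y`. -/
theorem count_abnormal (hA : AbnormalStatement) :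
    ∀ᶠ T : ℕ in atTop, ∀ y : ℝ, InRange T y → ∀ w : ℕ, 1 ≤ w → ∀ F : Finset ℕ,
      (∀ p ∈ F, p.Prime ∧ ¬ Normal p ∧ ((((p - 1) * w : ℕ)) : ℝ) ≤ y ∧
        Real.log y ≤ (T : ℝ) ^ 4 * Real.log p) →
      (F.card : ℝ) ≤ y / Real.log y / w *
        (34 * ((T : ℝ) ^ 4 * Real.exp (-((T : ℝ) / 3) ^ ((1 : ℝ) / 3)))) := by
  classical
  obtain ⟨t0, -, hA⟩ := hA
  filter_upwards [eventually_exp_le 4 1 (show (0 : ℝ) < 1 / 2 by norm_num) one_pos one_pos,
    Filter.eventually_ge_atTop (6 + 3 * t0)] with T hbig hT6 y hy w hw F hF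
  obtain ⟨hL1, hL2, hy2⟩ := inRange_log hy
  have hL0 : 0 < Real.log y := lt_of_lt_of_le (Real.exp_pos _) hL1
  have hT : (6 : ℝ) ≤ T := by exact_mod_cast le_trans (by omega) hT6
  have hT4pos : (0 : ℝ) < (T : ℝ) ^ 4 := by positivity
  have hw0 : (0 : ℝ) < w := by exact_mod_cast hw
  rcases F.eq_empty_or_nonempty with rfl | ⟨p0, hp0⟩
  · simp only [Finset.card_empty, Nat.cast_zero]
    positivity
  have key : ∀ p ∈ F, (p : ℝ) - 1 ≤ y / w := fun p hp => by
    obtain ⟨hpp, -, h, -⟩ := hF p hp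
    rw [le_div_iff₀ hw0]
    push_cast [Nat.cast_sub hpp.one_le] at h
    exact h
  obtain ⟨hpp, -, -, hlog⟩ := hF p0 hp0
  have hp2 : (2 : ℝ) ≤ p0 := by exact_mod_cast hpp.two_le
  have hy1 : 1 ≤ y / w := by linarith [key p0 hp0]
  set X := y / w + 1 with hX
  set e := Real.exp (-((T : ℝ) / 3) ^ ((1 : ℝ) / 3)) with he
  set l := Real.log X with hl
  have hlX : Real.log y / (T : ℝ) ^ 4 ≤ l := by
    rw [div_le_iff₀ hT4pos]
    calc Real.log y ≤ (T : ℝ) ^ 4 * Real.log p0 := hlog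
      _ ≤ (T : ℝ) ^ 4 * l := mul_le_mul_of_nonneg_left
          (Real.log_le_log (by linarith) (by linarith [key p0 hp0])) hT4pos.le
      _ = _ := by ring
  have hhalf : Real.exp ((T : ℝ) / 2) ≤ l := by
    refine le_trans ?_ hlX
    rw [le_div_iff₀ hT4pos]
    refine le_trans ?_ hL1
    have h2 := pow_le_exp_logT T 4
    push_cast at h2
    rw [Real.rpow_one, one_mul] at hbig
    calc Real.exp ((T : ℝ) / 2) * (T : ℝ) ^ 4
        ≤ Real.exp ((T : ℝ) / 2) * Real.exp (4 * Real.log ((T : ℝ) + 3) ^ 2) :=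
          mul_le_mul_of_nonneg_left
            ((pow_le_pow_left₀ (by linarith) (by linarith) 4).trans h2) (Real.exp_nonneg _)
      _ = Real.exp (4 * Real.log ((T : ℝ) + 3) ^ 2 - 1 / 2 * (T : ℝ)) * Real.exp (T : ℝ) := by
          rw [← Real.exp_add, ← Real.exp_add]; ring_nf
      _ ≤ 1 * Real.exp (T : ℝ) := mul_le_mul_of_nonneg_right hbig (Real.exp_nonneg _)
      _ = _ := one_mul _
  have hl0 : 0 < l := lt_of_lt_of_le (Real.exp_pos _) hhalf
  have hll : (T : ℝ) / 2 ≤ Real.log l := (Real.le_log_iff_exp_le hl0).2 hhalf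
  set t := ⌊Real.log l⌋₊ with ht
  have ht1 := Nat.lt_floor_add_one (Real.log l)
  have ht2 : (t : ℝ) ≤ Real.log l := Nat.floor_le (by linarith)
  have htT : (T : ℝ) / 3 ≤ t := by rw [← ht] at ht1; linarith
  have htt0 : t0 ≤ t := by
    have : (3 : ℝ) * t0 ≤ T := by exact_mod_cast le_trans (by omega) hT6
    have : (t0 : ℝ) ≤ t := by linarith
    exact_mod_cast this
  have hrange : InRange t X :=
    ⟨(Real.le_log_iff_exp_le (by linarith)).1 ((Real.le_log_iff_exp_le hl0).1 ht2),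
      (Real.log_lt_iff_lt_exp (by linarith)).1 ((Real.log_lt_iff_lt_exp hl0).1 (by
        rw [← ht] at ht1; linarith))⟩
  set F1 := F.filter fun p : ℕ => Real.sqrt X ≤ (p : ℝ) with hF1
  have hc1 : (F1.card : ℝ) ≤ X / l * e := by
    refine (hA t X htt0 hrange F1 fun p hp => ?_).trans ?_
    · obtain ⟨hp1, hp2⟩ := Finset.mem_filter.1 hp
      exact ⟨(hF p hp1).1, hp2, by linarith [key p hp1], (hF p hp1).2.1⟩
    · refine mul_le_mul_of_nonneg_left (Real.exp_le_exp.2 (neg_le_neg ?_)) (by positivity)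
      exact Real.rpow_le_rpow (by positivity) htT (by norm_num)
  have hc2 : ((F.filter fun p : ℕ => ¬ Real.sqrt X ≤ (p : ℝ)).card : ℝ) ≤ Real.sqrt X := by
    refine le_trans ?_ (Nat.floor_le (Real.sqrt_nonneg X))
    have : (F.filter fun p : ℕ => ¬ Real.sqrt X ≤ (p : ℝ)) ⊆ Finset.Icc 1 ⌊Real.sqrt X⌋₊ := by
      intro p hp
      obtain ⟨hp1, hp2⟩ := Finset.mem_filter.1 hp
      push Not at hp2
      exact Finset.mem_Icc.2 ⟨(hF p hp1).1.one_le, Nat.le_floor hp2.le⟩
    have h := Finset.card_le_card this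
    rw [Nat.card_Icc] at h
    exact_mod_cast le_trans h (by omega)
  have hsqrt : Real.sqrt X ≤ 16 * (X / l * e) := by
    have h1 : Real.sqrt X = Real.exp (l / 2) := by
      rw [hl, Real.exp_half, Real.exp_log (by linarith)]
    have h2 : (l / 4) ^ 2 ≤ Real.exp (l / 2) := by
      rw [show l / 2 = l / 4 + l / 4 by ring, Real.exp_add, sq]
      have : l / 4 ≤ Real.exp (l / 4) := by linarith [Real.add_one_le_exp (l / 4)]
      exact mul_le_mul this this (by positivity) (Real.exp_nonneg _)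
    have h3 : Real.exp (-((T : ℝ) / 2)) ≤ e := by
      refine Real.exp_le_exp.2 (neg_le_neg ?_)
      calc ((T : ℝ) / 3) ^ ((1 : ℝ) / 3) ≤ ((T : ℝ) / 3) ^ (1 : ℝ) :=
            Real.rpow_le_rpow_of_exponent_le (by linarith) (by norm_num)
        _ ≤ _ := by rw [Real.rpow_one]; linarith
    have h4 : 1 ≤ l * e := by
      calc (1 : ℝ) = Real.exp ((T : ℝ) / 2) * Real.exp (-((T : ℝ) / 2)) := by
            rw [← Real.exp_add]; simp
        _ ≤ _ := mul_le_mul hhalf h3 (Real.exp_nonneg _) hl0.le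
    have h5 : X = Real.exp (l / 2) * Real.exp (l / 2) := by
      rw [← Real.exp_add, show l / 2 + l / 2 = l by ring, hl, Real.exp_log (by linarith)]
    rw [h1, h5]
    calc Real.exp (l / 2) ≤ Real.exp (l / 2) * (l * e) :=
          le_mul_of_one_le_right (Real.exp_nonneg _) h4
      _ = 16 * (Real.exp (l / 2) * (l / 4) ^ 2 / l * e) := by field_simp; ring
      _ ≤ _ := by gcongr
  have hsum : (F.card : ℝ) ≤ 17 * (X / l * e) := by
    have h : (F1.card : ℝ) + ((F.filter fun p : ℕ => ¬ Real.sqrt X ≤ (p : ℝ)).card : ℝ) =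
        F.card := by exact_mod_cast Finset.card_filter_add_card_filter_not _
    linarith
  refine hsum.trans ?_
  calc 17 * (X / l * e) ≤ 17 * (2 * (y / w) / (Real.log y / (T : ℝ) ^ 4) * e) := by
        refine mul_le_mul_of_nonneg_left (mul_le_mul_of_nonneg_right ?_ (Real.exp_nonneg _))
          (by norm_num)
        exact div_le_div₀ (by positivity) (by linarith) (by positivity) hlX
    _ = _ := by field_simp; ring

end P031.Assembly
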