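import Vale.Agent.P031.Defs
import Vale.Agent.P031.Tools

/-! Elementary estimates for the final assembly. -/

open Finset Filter Asymptotics
open scoped Topology

noncomputable section

namespace P031.Assembly

theorem one_le_logT (T : ℕ) : 1 ≤ Real.log ((T : ℝ) + 3) := by
  refine (Real.le_log_iff_exp_le (by positivity)).2 ?_
  have := Real.exp_one_lt_d9
  have : (0 : ℝ) ≤ T := Nat.cast_nonneg T
  linarith

theorem eventually_decay (C M : ℝ) {b a : ℝ} (hb : 0 < b) (ha : 0 < a) :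
    ∀ᶠ T : ℕ in atTop, C * Real.log ((T : ℝ) + 3) ^ 2 - b * (T : ℝ) ^ a ≤ M := by
  have h := (isLittleO_log_rpow_rpow_atTop (2 : ℝ) ha).bound
    (show 0 < b / (8 * (|C| + 1)) by positivity)
  obtain ⟨N, hN⟩ := Filter.eventually_atTop.1 h
  filter_upwards [Filter.eventually_ge_atTop (max ⌈N⌉₊ 3),
    ((tendsto_rpow_atTop ha).comp tendsto_natCast_atTop_atTop).eventually
      (eventually_ge_atTop ((8 * |C| * Real.log 2 ^ 2 + |M|) / (b / 2)))] with T hT hT2
  have hT3 : (3 : ℝ) ≤ T := by exact_mod_cast le_trans (le_max_right _ _) hT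
  have hTN : N ≤ (T : ℝ) := (Nat.le_ceil N).trans (by exact_mod_cast le_trans (le_max_left _ _) hT)
  have h1 := hN (T : ℝ) hTN
  rw [Real.norm_of_nonneg (Real.rpow_nonneg (Real.log_nonneg (by linarith)) _),
    Real.norm_of_nonneg (Real.rpow_nonneg (by linarith) _), Real.rpow_two] at h1
  have h2 : Real.log ((T : ℝ) + 3) ≤ Real.log 2 + Real.log T := by
    rw [← Real.log_mul (by norm_num) (by linarith)]
    exact Real.log_le_log (by linarith) (by linarith)
  have h3 : 0 ≤ Real.log ((T : ℝ) + 3) := by linarith [one_le_logT T]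
  have h4 : Real.log ((T : ℝ) + 3) ^ 2 ≤ 2 * Real.log 2 ^ 2 + 2 * Real.log (T : ℝ) ^ 2 := by
    nlinarith [sq_nonneg (Real.log 2 - Real.log (T : ℝ))]
  have h5 : C * Real.log ((T : ℝ) + 3) ^ 2 ≤ |C| * Real.log ((T : ℝ) + 3) ^ 2 :=
    mul_le_mul_of_nonneg_right (le_abs_self C) (sq_nonneg _)
  have h6 : |C| * Real.log (T : ℝ) ^ 2 ≤ b / 8 * (T : ℝ) ^ a := by
    calc |C| * Real.log (T : ℝ) ^ 2 ≤ |C| * (b / (8 * (|C| + 1)) * (T : ℝ) ^ a) :=
          mul_le_mul_of_nonneg_left h1 (abs_nonneg C)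
      _ ≤ b / 8 * (T : ℝ) ^ a := by
          have h7 : |C| * (b / (8 * (|C| + 1))) ≤ b / 8 := by
            have hk : 0 < |C| + 1 := by positivity
            rw [show |C| * (b / (8 * (|C| + 1))) = b / 8 * (|C| / (|C| + 1)) by
              field_simp]
            exact mul_le_of_le_one_right (by positivity) ((div_le_one hk).2 (by linarith))
          calc |C| * (b / (8 * (|C| + 1)) * (T : ℝ) ^ a)
              = |C| * (b / (8 * (|C| + 1))) * (T : ℝ) ^ a := by ring
            _ ≤ _ := mul_le_mul_of_nonneg_right h7 (Real.rpow_nonneg (by linarith) _)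
  have h8 : (8 * |C| * Real.log 2 ^ 2 + |M|) / (b / 2) ≤ (T : ℝ) ^ a := hT2
  rw [div_le_iff₀ (by positivity)] at h8
  have h9 : |C| * Real.log ((T : ℝ) + 3) ^ 2 ≤
      |C| * (2 * Real.log 2 ^ 2 + 2 * Real.log (T : ℝ) ^ 2) :=
    mul_le_mul_of_nonneg_left h4 (abs_nonneg C)
  nlinarith [neg_abs_le M, abs_nonneg M, mul_nonneg (abs_nonneg C) (sq_nonneg (Real.log 2))]

theorem inRange_log {T : ℕ} {y : ℝ} (h : InRange T y) :
    Real.exp (T : ℝ) ≤ Real.log y ∧ Real.log y < Real.exp ((T : ℝ) + 2) ∧ 2 < y := by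
  obtain ⟨h1, h2⟩ := h
  have he : (1 : ℝ) ≤ Real.exp (T : ℝ) := Real.one_le_exp (Nat.cast_nonneg T)
  have h3 : Real.exp 1 ≤ y := le_trans (Real.exp_le_exp.2 he) h1
  have h4 : 2 < y := lt_of_lt_of_le (by linarith [Real.exp_one_gt_d9]) h3
  exact ⟨(Real.le_log_iff_exp_le (by linarith)).2 h1,
    (Real.log_lt_iff_lt_exp (by linarith)).2 h2, h4⟩

theorem prod_le_mul_prod_sub_one :
    ∀ s : Finset ℕ, (∀ p ∈ s, 2 ≤ p) → ∏ p ∈ s, p ≤ (s.card + 1) * ∏ p ∈ s, (p - 1) := by
  intro s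
  induction s using Finset.induction_on_max with
  | empty => simp
  | insert a s ha ih =>
    intro hs
    have has : a ∉ s := fun h => lt_irrefl a (ha a h)
    have h1 := ih fun p hp => hs p (Finset.mem_insert_of_mem hp)
    have h2 : 2 ≤ a := hs a (Finset.mem_insert_self a s)
    have h3 : s.card + 2 ≤ a := by
      have h4 : s ⊆ Finset.Ico 2 a := fun p hp =>
        Finset.mem_Ico.2 ⟨hs p (Finset.mem_insert_of_mem hp), ha p hp⟩
      have := Finset.card_le_card h4
      rw [Nat.card_Ico] at this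
      omega
    rw [Finset.prod_insert has, Finset.prod_insert has, Finset.card_insert_of_notMem has]
    obtain ⟨b, rfl⟩ : ∃ b, a = b + 1 := ⟨a - 1, by omega⟩
    simp only [Nat.add_sub_cancel]
    calc (b + 1) * ∏ p ∈ s, p ≤ (b + 1) * ((s.card + 1) * ∏ p ∈ s, (p - 1)) :=
          Nat.mul_le_mul_left _ h1
      _ = ((b + 1) * (s.card + 1)) * ∏ p ∈ s, (p - 1) := by ring
      _ ≤ ((s.card + 1 + 1) * b) * ∏ p ∈ s, (p - 1) := by
          refine Nat.mul_le_mul_right _ ?_
          nlinarith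
      _ = _ := by ring

theorem le_totient_mul {n : ℕ} (hn : n ≠ 0) : n ≤ Nat.totient n * (n.primeFactors.card + 1) := by
  have h := Nat.totient_mul_prod_primeFactors n
  have h1 := prod_le_mul_prod_sub_one n.primeFactors
    fun p hp => (Nat.prime_of_mem_primeFactors hp).two_le
  have hpos : 0 < ∏ p ∈ n.primeFactors, p :=
    Finset.prod_pos fun p hp => (Nat.prime_of_mem_primeFactors hp).pos
  refine Nat.le_of_mul_le_mul_right ?_ hpos
  calc n * ∏ p ∈ n.primeFactors, p
      ≤ n * ((n.primeFactors.card + 1) * ∏ p ∈ n.primeFactors, (p - 1)) :=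
        Nat.mul_le_mul_left _ h1
    _ = (n * ∏ p ∈ n.primeFactors, (p - 1)) * (n.primeFactors.card + 1) := by ring
    _ = (Nat.totient n * ∏ p ∈ n.primeFactors, p) * (n.primeFactors.card + 1) := by rw [h]
    _ = _ := by ring

theorem card_primeFactors_le {n : ℕ} (hn : n ≠ 0) :
    (n.primeFactors.card : ℝ) * Real.log 2 ≤ Real.log n := by
  have h1 : 2 ^ n.primeFactors.card ≤ n := by
    calc 2 ^ n.primeFactors.card = ∏ _p ∈ n.primeFactors, 2 := by rw [Finset.prod_const]
      _ ≤ ∏ p ∈ n.primeFactors, p :=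
          Finset.prod_le_prod' fun p hp => (Nat.prime_of_mem_primeFactors hp).two_le
      _ ≤ n := Nat.le_of_dvd (Nat.pos_of_ne_zero hn) (Nat.prod_primeFactors_dvd n)
  have h2 : ((2 : ℝ) ^ n.primeFactors.card) ≤ n := by exact_mod_cast h1
  have h3 := Real.log_le_log (by positivity) h2
  rwa [Real.log_pow] at h3

theorem preimage_bound {n : ℕ} {y : ℝ} (hn : n ≠ 0) (hy : 3 ≤ y)
    (h : (Nat.totient n : ℝ) ≤ y) : (n : ℝ) ≤ y * (4 * Real.log y + 20) := by
  have h0 : (1 : ℝ) ≤ n := by exact_mod_cast Nat.pos_of_ne_zero hn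
  have h1 : (n : ℝ) ≤ (Nat.totient n : ℝ) * ((n.primeFactors.card : ℝ) + 1) := by
    exact_mod_cast le_totient_mul hn
  have h2 := card_primeFactors_le hn
  have h3 := Real.log_two_gt_d9
  have hl : 0 ≤ Real.log n := Real.log_nonneg h0
  have h4 : (n.primeFactors.card : ℝ) ≤ 2 * Real.log n := by
    nlinarith [(Nat.cast_nonneg n.primeFactors.card : (0 : ℝ) ≤ _)]
  have h5 : (n : ℝ) ≤ y * (2 * Real.log n + 1) :=
    h1.trans (mul_le_mul h (by linarith) (by positivity) (by linarith))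
  have h6 : Real.log n ≤ Real.log y + Real.log (2 * Real.log n + 1) := by
    rw [← Real.log_mul (by linarith) (by positivity)]
    exact Real.log_le_log (by linarith) h5
  have h7 : Real.log (2 * Real.log n + 1) ≤ Real.log n / 2 + 4 := by
    have := Real.log_le_sub_one_of_pos (show 0 < (2 * Real.log n + 1) / 8 by positivity)
    rw [Real.log_div (by positivity) (by norm_num)] at this
    have h8 : Real.log 8 = 3 * Real.log 2 := by
      rw [show (8 : ℝ) = 2 ^ 3 by norm_num, Real.log_pow]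
      norm_num
    nlinarith [Real.log_two_lt_d9]
  exact h5.trans (mul_le_mul_of_nonneg_left (by linarith) (by linarith))

theorem sum_inv_mul_pred_le (F : Finset ℕ) {m : ℕ} (hm : 2 ≤ m) (hF : ∀ p ∈ F, m ≤ p) :
    ∑ p ∈ F, ((p : ℝ) * ((p : ℝ) - 1))⁻¹ ≤ ((m : ℝ) - 1)⁻¹ := by
  have key : ∀ N : ℕ, m ≤ N → ∑ p ∈ Finset.Ico m N, ((p : ℝ) * ((p : ℝ) - 1))⁻¹
      = ((m : ℝ) - 1)⁻¹ - ((N : ℝ) - 1)⁻¹ := by
    intro N hN
    induction N, hN using Nat.le_induction with
    | base => simp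
    | succ N hN ih =>
      rw [Finset.sum_Ico_succ_top hN, ih]
      have h1 : (2 : ℝ) ≤ N := by exact_mod_cast hm.trans hN
      have h2 : (N : ℝ) - 1 ≠ 0 := by linarith
      have h3 : (N : ℝ) ≠ 0 := by linarith
      push_cast
      rw [show (N : ℝ) + 1 - 1 = N by ring]
      field_simp
      ring
  have hN : F ⊆ Finset.Ico m (max m (F.sup id + 1)) := by
    intro p hp
    have := Finset.le_sup (f := id) hp
    simp only [id_eq] at this
    exact Finset.mem_Ico.2 ⟨hF p hp, by omega⟩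
  refine (Finset.sum_le_sum_of_subset_of_nonneg hN fun p hp _ => ?_).trans ?_
  · have : (2 : ℝ) ≤ p := by exact_mod_cast hm.trans (Finset.mem_Ico.1 hp).1
    exact inv_nonneg.2 (mul_nonneg (by linarith) (by linarith))
  · rw [key _ (le_max_left _ _)]
    have : (2 : ℝ) ≤ (max m (F.sup id + 1) : ℕ) := by exact_mod_cast hm.trans (le_max_left _ _)
    exact sub_le_self _ (inv_nonneg.2 (by linarith))

theorem pi_le_five {X : ℝ} (hX : 2 ≤ X) :
    (Nat.primeCounting ⌊X⌋₊ : ℝ) ≤ 5 * X / Real.log X := by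
  have h := Chebyshev.pi_le_log4_mul_div (show 1 < X by linarith)
  rw [Real.log_sqrt (by linarith)] at h
  have hl : 0 < Real.log X := Real.log_pos (by linarith)
  have h2 : Real.log X / 2 ≤ Real.sqrt X := by
    rw [← Real.log_sqrt (by linarith)]
    exact (Real.log_le_sub_one_of_pos (Real.sqrt_pos.2 (by linarith))).trans (by linarith)
  have h3 : Real.log 4 = 2 * Real.log 2 := by
    rw [show (4 : ℝ) = 2 ^ 2 by norm_num, Real.log_pow]
    norm_num
  have h4 : Real.sqrt X ≤ 2 * X / Real.log X := by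
    rw [le_div_iff₀ hl]
    nlinarith [Real.mul_self_sqrt (show 0 ≤ X by linarith), Real.sqrt_nonneg X]
  have h5 : Real.log 4 * X / (Real.log X / 2) ≤ 3 * X / Real.log X := by
    rw [div_div_eq_mul_div]
    exact div_le_div_of_nonneg_right (by nlinarith [Real.log_two_lt_d9]) hl.le
  calc (Nat.primeCounting ⌊X⌋₊ : ℝ) ≤ 3 * X / Real.log X + 2 * X / Real.log X := by linarith
    _ = _ := by ring

theorem card_primes_le {X : ℝ} (hX : 2 ≤ X) (F : Finset ℕ)
    (hF : ∀ p ∈ F, p.Prime ∧ (p : ℝ) ≤ X) : (F.card : ℝ) ≤ 5 * X / Real.log X := by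
  refine le_trans ?_ (pi_le_five hX)
  rw [← Nat.primesLE_card_eq_primeCounting]
  exact_mod_cast Finset.card_le_card fun p hp =>
    Nat.mem_primesLE.2 ⟨Nat.le_floor (hF p hp).2, (hF p hp).1⟩

theorem pi_lower : ∃ Z : ℝ, 2 ≤ Z ∧ ∀ z : ℝ, Z ≤ z →
    z / (4 * Real.log z) ≤ (Nat.primeCounting (⌊z⌋₊ + 1) : ℝ) := by
  refine ⟨1000, by norm_num, fun z hz => ?_⟩
  have h := Chebyshev.pi_ge' (show 1 < z by linarith)
  have h1 : (Nat.primeCounting ⌊z⌋₊ : ℝ) ≤ (Nat.primeCounting (⌊z⌋₊ + 1) : ℝ) := by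
    exact_mod_cast Nat.monotone_primeCounting (Nat.le_succ _)
  refine le_trans ?_ (h.trans h1)
  have hl : 0 < Real.log z := Real.log_pos (by linarith)
  have h2 : Real.log (z + 2) ≤ z / 16 := by
    have := Real.log_le_sub_one_of_pos (show 0 < (z + 2) / 64 by positivity)
    rw [Real.log_div (by positivity) (by norm_num)] at this
    have h8 : Real.log 64 = 6 * Real.log 2 := by
      rw [show (64 : ℝ) = 2 ^ 6 by norm_num, Real.log_pow]
      norm_num
    nlinarith [Real.log_two_lt_d9]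
  rw [show z / (4 * Real.log z) = z / 4 / Real.log z by rw [div_div]]
  gcongr
  nlinarith [Real.log_two_gt_d9]

theorem eq_high_mul_lowPart {n : ℕ} (hn : n ≠ 0) (S : ℕ) :
    n = (∏ p ∈ high n S, p ^ n.factorization p) * lowPart n S := by
  have h := Nat.prod_factorization_pow_eq_self hn
  rw [Finsupp.prod, Nat.support_factorization,
    ← Finset.prod_filter_mul_prod_filter_not n.primeFactors (fun p => S ≤ cell p)] at h
  simp only [not_le] at h
  exact h.symm

theorem factorization_high {n S p : ℕ} (hn : n ≠ 0) (hp : p ∈ high n S)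
    (hsq : ¬ p ^ 2 ∣ n) : n.factorization p = 1 := by
  have h1 := (Finset.mem_filter.1 hp).1
  have hpp := Nat.prime_of_mem_primeFactors h1
  have hpos := hpp.factorization_pos_of_dvd hn (Nat.dvd_of_mem_primeFactors h1)
  have h2 : ¬ 2 ≤ n.factorization p := fun h =>
    hsq ((hpp.pow_dvd_iff_le_factorization hn).2 h)
  omega

/-- An unexceptional number is small. -/
theorem log_le_of_not_exceptional {T n : ℕ} (hn : n ≠ 0) (h : ¬ Exceptional T n) :
    Real.log n ≤ (∑ p ∈ high n (cutoff T), Real.log p) + Real.exp (2 * (cutoff T : ℝ)) := by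
  simp only [Exceptional, not_or, not_exists, not_and, not_not, not_lt] at h
  obtain ⟨h1, -, h3⟩ := h
  have he : (n : ℝ) = (∏ p ∈ high n (cutoff T), (p : ℝ)) * lowPart n (cutoff T) := by
    conv_lhs => rw [eq_high_mul_lowPart hn (cutoff T)]
    push_cast
    congr 1
    refine Finset.prod_congr rfl fun p hp => ?_
    rw [factorization_high hn hp (h1 p hp).1, pow_one]
  have hne : ∀ p ∈ high n (cutoff T), (p : ℝ) ≠ 0 := fun p hp =>
    Nat.cast_ne_zero.2 (Nat.prime_of_mem_primeFactors (Finset.mem_filter.1 hp).1).ne_zero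
  rw [he, Real.log_mul (Finset.prod_ne_zero_iff.2 hne)
    (Nat.cast_ne_zero.2 (lowPart_ne_zero n _)), Real.log_prod hne]
  linarith

end P031.Assembly
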