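import Vale.Agent.P031.Assembly.Lower

/-! The limit. -/

open Finset Filter
open scoped Topology

noncomputable section

namespace P031.Assembly

/-- The prime number theorem in the form used. -/
theorem prime_ratio (hN : PNTStatement) {c η : ℝ} (hc : 1 < c) (hη : 0 < η) :
    ∃ Z : ℝ, ∀ z : ℝ, Z ≤ z →
      |(Nat.primeCounting (⌊c * z⌋₊ + 1) : ℝ) - c * (Nat.primeCounting (⌊z⌋₊ + 1) : ℝ)| ≤
        η * (Nat.primeCounting (⌊z⌋₊ + 1) : ℝ) := by
  set e := min (η / 2) ((c - 1) / 2) with he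
  have he0 : 0 < e := lt_min (by linarith) (by linarith)
  have he1 : e ≤ η / 2 := min_le_left _ _
  have he2 : e ≤ (c - 1) / 2 := min_le_right _ _
  have hc' : 0 < c - e := by linarith
  have h1 := Metric.tendsto_nhds.1 (hN c (by linarith)) e he0
  have h2 := Metric.tendsto_nhds.1 (hN (c - e) hc') e he0
  obtain ⟨Z1, hZ1⟩ := Filter.eventually_atTop.1 h1
  obtain ⟨Z2, hZ2⟩ := Filter.eventually_atTop.1 h2
  refine ⟨max (max Z1 Z2) (max ((c - 1) / e) 2), fun z hz => ?_⟩
  have hzZ1 : Z1 ≤ z := le_trans (le_trans (le_max_left _ _) (le_max_left _ _)) hz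
  have hzZ2 : Z2 ≤ z := le_trans (le_trans (le_max_right _ _) (le_max_left _ _)) hz
  have hzc : (c - 1) / e ≤ z := le_trans (le_trans (le_max_left _ _) (le_max_right _ _)) hz
  have hz2 : 2 ≤ z := le_trans (le_trans (le_max_right _ _) (le_max_right _ _)) hz
  rw [div_le_iff₀ he0] at hzc
  set u := z + 1 with hu
  have h3 := hZ1 u (by linarith)
  have h4 := hZ2 u (by linarith)
  rw [Real.dist_eq, abs_lt] at h3 h4
  have hden : ⌊z⌋₊ + 1 = ⌊u⌋₊ := (Nat.floor_add_one (by linarith)).symm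
  have hnum : ⌊c * z⌋₊ + 1 = ⌊c * z + 1⌋₊ := (Nat.floor_add_one (by positivity)).symm
  rw [hden, hnum]
  set P := (Nat.primeCounting ⌊u⌋₊ : ℝ) with hP
  have hPpos : 0 < P := by
    have : Nat.primeCounting 2 ≤ Nat.primeCounting ⌊u⌋₊ :=
      Nat.monotone_primeCounting (Nat.le_floor (by norm_num; linarith))
    have h2' : 0 < Nat.primeCounting 2 := by decide
    rw [hP]
    exact_mod_cast lt_of_lt_of_le h2' this
  have hup : (Nat.primeCounting ⌊c * z + 1⌋₊ : ℝ) ≤ (Nat.primeCounting ⌊c * u⌋₊ : ℝ) := by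
    exact_mod_cast Nat.monotone_primeCounting (Nat.floor_mono (by rw [hu]; nlinarith))
  have hlow : (Nat.primeCounting ⌊(c - e) * u⌋₊ : ℝ) ≤
      (Nat.primeCounting ⌊c * z + 1⌋₊ : ℝ) := by
    exact_mod_cast Nat.monotone_primeCounting (Nat.floor_mono (by rw [hu]; nlinarith))
  have h5 : (Nat.primeCounting ⌊c * u⌋₊ : ℝ) < (c + e) * P :=
    (div_lt_iff₀ hPpos).1 (by linarith [h3.2])
  have h6 : (c - e - e) * P < (Nat.primeCounting ⌊(c - e) * u⌋₊ : ℝ) :=
    (lt_div_iff₀ hPpos).1 (by linarith [h4.1])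
  have hb : e * P ≤ η / 2 * P := mul_le_mul_of_nonneg_right he1 hPpos.le
  rw [abs_le]
  constructor
  · nlinarith
  · nlinarith

theorem level_range {c : ℝ} (hc : 1 < c) :
    ∀ᶠ x : ℝ in atTop, InRange ⌊Real.log (Real.log x)⌋₊ x ∧
      InRange ⌊Real.log (Real.log x)⌋₊ (c * x) := by
  filter_upwards [eventually_ge_atTop (Real.exp (Real.exp (max (Real.log c) 0)))] with x hx
  have hx0 : 0 < x := lt_of_lt_of_le (Real.exp_pos _) hx
  have hl : Real.exp (max (Real.log c) 0) ≤ Real.log x := (Real.le_log_iff_exp_le hx0).2 hx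
  have hl0 : 0 < Real.log x := lt_of_lt_of_le (Real.exp_pos _) hl
  have hll : max (Real.log c) 0 ≤ Real.log (Real.log x) := (Real.le_log_iff_exp_le hl0).2 hl
  have hll0 : 0 ≤ Real.log (Real.log x) := le_trans (le_max_right _ _) hll
  set T := ⌊Real.log (Real.log x)⌋₊ with hT
  have h1 : (T : ℝ) ≤ Real.log (Real.log x) := Nat.floor_le hll0
  have h2 : Real.log (Real.log x) < (T : ℝ) + 1 := Nat.lt_floor_add_one _
  have h3 : Real.exp (T : ℝ) ≤ Real.log x := (Real.le_log_iff_exp_le hl0).1 h1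
  have h4 : Real.log x < Real.exp ((T : ℝ) + 1) := (Real.log_lt_iff_lt_exp hl0).1 h2
  have h5 : Real.exp (Real.exp (T : ℝ)) ≤ x := (Real.le_log_iff_exp_le hx0).1 h3
  have h6 : x < Real.exp (Real.exp ((T : ℝ) + 1)) := (Real.log_lt_iff_lt_exp hx0).1 h4
  have h7 : Real.exp ((T : ℝ) + 1) ≤ Real.exp ((T : ℝ) + 2) := Real.exp_le_exp.2 (by linarith)
  refine ⟨⟨h5, h6.trans_le (Real.exp_le_exp.2 h7)⟩,
    ⟨h5.trans (le_mul_of_one_le_left hx0.le hc.le), ?_⟩⟩
  rw [← Real.exp_log (show 0 < c * x by positivity)]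
  refine Real.exp_lt_exp.2 ?_
  rw [Real.log_mul (by linarith) (by linarith)]
  have h8 : Real.log c ≤ Real.exp ((T : ℝ) + 1) := by
    linarith [le_max_left (Real.log c) 0, Real.add_one_le_exp ((T : ℝ) + 1)]
  have h9 : Real.exp ((T : ℝ) + 1) * 2 ≤ Real.exp ((T : ℝ) + 2) := by
    rw [show (T : ℝ) + 2 = (T : ℝ) + 1 + 1 by ring, Real.exp_add ((T : ℝ) + 1)]
    exact mul_le_mul_of_nonneg_left (by linarith [Real.exp_one_gt_d9]) (Real.exp_nonneg _)
  linarith

theorem A_ratio (hN : PNTStatement) {c η : ℝ} (hc : 1 < c) (hη : 0 < η) :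
    ∀ᶠ T : ℕ in atTop, ∀ y : ℝ, InRange T y →
      |(A T (c * y) : ℝ) - c * A T y| ≤ η * A T y := by
  obtain ⟨Z, hZ⟩ := prime_ratio hN hc hη
  filter_upwards [log_allGood, eventually_log_large (8 / 7 * Real.log (max Z 1))] with T hlog hlarge
  intro y hy
  obtain ⟨hL1, -, hy2⟩ := inRange_log hy
  rw [A, A]
  push_cast
  rw [Finset.mul_sum, Finset.mul_sum, ← Finset.sum_sub_distrib]
  refine (Finset.abs_sum_le_sum_abs _ _).trans (Finset.sum_le_sum fun w hw => ?_)
  have hw1 : (1 : ℝ) ≤ w := by exact_mod_cast one_le_allGood hw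
  have hz : max Z 1 ≤ y / w := by
    refine (Real.log_le_log_iff (lt_of_lt_of_le one_pos (le_max_right _ _)) (by positivity)).1 ?_
    rw [Real.log_div (by linarith) (by linarith)]
    linarith [hlog w hw, hlarge y hy]
  have := hZ (y / w) (le_trans (le_max_left _ _) hz)
  rwa [← mul_div_assoc] at this

variable (hN : PNTStatement) (hS : SmoothStatement) (hA : AbnormalStatement)
  (hT : TotalStatement) (hE : ExceptionalStatement) (hV : ViolStatement)
  (hP : PairCountStatement) (hR : RegularityStatement)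

include hS hA hT hE hV hP hR in
/-- `V` is asymptotic to the expected count. -/
theorem V_asymp {η : ℝ} (hη : 0 < η) :
    ∀ᶠ T : ℕ in atTop, ∀ y : ℝ, InRange T y → |(V y : ℝ) - A T y| ≤ η * A T y := by
  filter_upwards [upper_bound hS hA hT hE hV hR hη, lower_bound hA hT hP hη] with T h1 h2
  intro y hy
  rw [abs_le]
  constructor <;> linarith [h1 y hy, h2 y hy]

include hN hS hA hT hE hV hP hR in
theorem main : MainStatement := by
  intro c hc
  rw [Metric.tendsto_nhds]
  intro ε hε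
  set η := min (ε / (12 * c)) (1 / 2) with hηdef
  have hη : 0 < η := lt_min (by positivity) (by norm_num)
  have hηhalf : η ≤ 1 / 2 := min_le_right _ _
  have hη1 : η * (12 * c) ≤ ε := by
    have := min_le_left (ε / (12 * c)) (1 / 2)
    rw [← hηdef, le_div_iff₀ (by positivity)] at this
    exact this
  have hev := ((V_asymp hS hA hT hE hV hP hR hη).and (A_ratio hN hc hη)).and error_le_A
  have hlim : Tendsto (fun x : ℝ => ⌊Real.log (Real.log x)⌋₊) atTop atTop :=
    tendsto_nat_floor_atTop.comp (Real.tendsto_log_atTop.comp Real.tendsto_log_atTop)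
  filter_upwards [hlim.eventually hev, level_range hc] with x hx hr
  obtain ⟨⟨hV', hA'⟩, herr⟩ := hx
  obtain ⟨hr1, hr2⟩ := hr
  set T := ⌊Real.log (Real.log x)⌋₊ with hTdef
  have h1 := abs_le.1 (hV' x hr1)
  have h2 := abs_le.1 (hV' (c * x) hr2)
  have h3 := abs_le.1 (hA' x hr1)
  obtain ⟨hL1, -, hx2⟩ := inRange_log hr1
  have hA0 : (0 : ℝ) < A T x := by
    have h0 : 0 < x / Real.log x :=
      div_pos (by linarith) (lt_of_lt_of_le (Real.exp_pos _) hL1)
    linarith [herr x hr1]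
  have hV0 : (0 : ℝ) < V x := by nlinarith
  have hVA : (A T x : ℝ) ≤ 2 * V x := by nlinarith
  rw [Real.dist_eq, div_sub' hV0.ne', abs_div, abs_of_pos hV0, div_lt_iff₀ hV0]
  have hAcx : (A T (c * x) : ℝ) ≤ (c + η) * A T x := by linarith
  have hbound : |(V (c * x) : ℝ) - V x * c| ≤ η * (c + η) * A T x + η * A T x + c * η * A T x := by
    have h4 : |(V (c * x) : ℝ) - A T (c * x)| ≤ η * (c + η) * A T x := by
      refine (hV' (c * x) hr2).trans ?_
      rw [mul_assoc]
      exact mul_le_mul_of_nonneg_left hAcx hη.le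
    have h5 : |c * (A T x : ℝ) - V x * c| ≤ c * η * A T x := by
      rw [show c * (A T x : ℝ) - V x * c = c * ((A T x : ℝ) - V x) by ring, abs_mul,
        abs_of_pos (show (0 : ℝ) < c by linarith), abs_sub_comm, mul_assoc]
      exact mul_le_mul_of_nonneg_left (hV' x hr1) (by linarith)
    have h6 := hA' x hr1
    calc |(V (c * x) : ℝ) - V x * c|
        ≤ |(V (c * x) : ℝ) - A T (c * x)| + |(A T (c * x) : ℝ) - c * A T x| +
          |c * (A T x : ℝ) - V x * c| := by
          refine le_trans ?_ (abs_add_three _ _ _)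
          exact le_of_eq (by ring_nf)
      _ ≤ _ := by linarith
  refine lt_of_le_of_lt hbound ?_
  have hc0 : 0 < c := by linarith
  have : η * (c + η) * A T x + η * A T x + c * η * A T x ≤ 5 * c * η * A T x := by
    have h7 : η * (c + η) + η + c * η ≤ 5 * c * η := by nlinarith
    nlinarith
  refine lt_of_le_of_lt this ?_
  calc 5 * c * η * (A T x : ℝ) ≤ 5 * c * η * (2 * V x) :=
        mul_le_mul_of_nonneg_left hVA (by positivity)
    _ = η * (10 * c) * V x := by ring
    _ < ε * V x := mul_lt_mul_of_pos_right (by nlinarith) hV0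

end P031.Assembly
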