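import Vale.Agent.P031.Assembly.Main

/-! The matching lower bound. -/

open Finset Filter
open scoped Topology

noncomputable section

namespace P031.Assembly

theorem card_le_image_add_collisions {α β : Type*} [DecidableEq α] [DecidableEq β]
    (S : Finset α) (f : α → β) :
    S.card ≤ (S.image f).card + ((S ×ˢ S).filter fun z => z.1 ≠ z.2 ∧ f z.1 = f z.2).card := by
  classical
  rcases S.eq_empty_or_nonempty with rfl | ⟨a0, ha0⟩
  · simp
  have : Nonempty α := ⟨a0⟩
  have hg : ∀ b ∈ S.image f, ∃ a ∈ S, f a = b := fun b hb => Finset.mem_image.1 hb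
  choose! g hg1 hg2 using hg
  have h1 : (S.filter fun a => a = g (f a)).card ≤ (S.image f).card := by
    refine Finset.card_le_card_of_injOn f
      (fun a ha => Finset.mem_image_of_mem f (Finset.mem_filter.1 ha).1) fun a ha b hb h => ?_
    rw [(Finset.mem_filter.1 ha).2, (Finset.mem_filter.1 hb).2, h]
  have h2 : (S.filter fun a => ¬ a = g (f a)).card ≤
      ((S ×ˢ S).filter fun z => z.1 ≠ z.2 ∧ f z.1 = f z.2).card := by
    refine Finset.card_le_card_of_injOn (fun a => (a, g (f a))) ?_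
      fun a _ b _ h => congrArg Prod.fst h
    intro a ha
    obtain ⟨ha1, ha2⟩ := Finset.mem_filter.1 ha
    have hm := Finset.mem_image_of_mem f ha1
    exact Finset.mem_filter.2
      ⟨Finset.mem_product.2 ⟨ha1, hg1 _ hm⟩, ha2, (hg2 _ hm).symm⟩
  have h3 := Finset.card_filter_add_card_filter_not (s := S) (fun a => a = g (f a))
  omega

theorem valuesOf_allGood_cells {T : ℕ} (he : 0 ≤ eps T) :
    ValuesOf (fun n => 0 < n ∧ CellsLe n (T + 2)) (allGood T) := by
  intro w hw
  obtain ⟨n, hn, h⟩ := valuesOf_allGood T w hw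
  refine ⟨n, ⟨hn.1, fun q hq => ?_⟩, h⟩
  have h1 : (cell q : ℝ) ≤ ((T + 2 : ℕ) : ℝ) := by
    push_cast
    nlinarith [hn.2.2.2 q hq, (Nat.cast_nonneg T : (0 : ℝ) ≤ T)]
  exact_mod_cast h1

theorem eps_nonneg (T : ℕ) : 0 ≤ eps T := Real.rpow_nonneg (by positivity) _

variable (hA : AbnormalStatement) (hT : TotalStatement) (hP : PairCountStatement)

include hA hT in
theorem pairs_mostly_proper {δ : ℝ} (hδ : 0 < δ) :
    ∀ᶠ T : ℕ in atTop, ∀ y : ℝ, InRange T y → ∀ S : Finset (Σ _ : ℕ, ℕ),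
      (∀ a ∈ pairSet T y, Normal a.2 ∧
        y / Real.log y ^ 2 < (((a.2 - 1) * a.1 : ℕ) : ℝ) → a ∈ S) →
      (A T y : ℝ) ≤ S.card + 8 * δ * A T y := by
  classical
  filter_upwards [count_abnormal hA, abnormal_total hT hδ, log_allGood, A_lower, error_le_A,
    eventually_log_large (max (20 / δ + 1) 256), Filter.eventually_ge_atTop 2]
    with T hab habt hlog hAlow herr hlarge hT2
  intro y hy S hS
  obtain ⟨hL1, -, hy2⟩ := inRange_log hy
  set L := Real.log y with hLdef
  have hL256 : 256 ≤ L := le_trans (le_max_right _ _) (hlarge y hy)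
  have hLδ : 20 / δ + 1 ≤ L := le_trans (le_max_left _ _) (hlarge y hy)
  have hL0 : 0 < L := by linarith
  set B := (pairSet T y).filter fun a => (((a.2 - 1) * a.1 : ℕ) : ℝ) ≤ y / L ^ 2 with hB
  set N := (pairSet T y).filter fun a =>
    ¬ Normal a.2 ∧ y / L ^ 2 < (((a.2 - 1) * a.1 : ℕ) : ℝ) with hN
  have hsub : pairSet T y ⊆ B ∪ N ∪ S := fun a ha => by
    by_cases h1 : (((a.2 - 1) * a.1 : ℕ) : ℝ) ≤ y / L ^ 2
    · exact Finset.mem_union_left _ (Finset.mem_union_left _ (Finset.mem_filter.2 ⟨ha, h1⟩))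
    · push Not at h1
      by_cases h2 : Normal a.2
      · exact Finset.mem_union_right _ (hS a ha ⟨h2, h1⟩)
      · exact Finset.mem_union_left _
          (Finset.mem_union_right _ (Finset.mem_filter.2 ⟨ha, h2, h1⟩))
  have hlogL : Real.log L ≤ L / 8 := by
    have h1 : Real.log L = 2 * Real.log (Real.sqrt L) := by
      rw [Real.log_sqrt hL0.le]; ring
    have h2 := Real.log_le_sub_one_of_pos (Real.sqrt_pos.2 hL0)
    have h3 : 16 ≤ Real.sqrt L := Real.le_sqrt_of_sq_le (by linarith)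
    nlinarith [Real.mul_self_sqrt hL0.le]
  have key : ∀ w ∈ allGood T, Real.log (y / L ^ 2 / w) ≥ L / 2 := by
    intro w hw
    have hw1 : (1 : ℝ) ≤ w := by exact_mod_cast one_le_allGood hw
    rw [Real.log_div (by positivity) (by linarith), Real.log_div (by linarith) (by positivity),
      Real.log_pow]
    push_cast
    linarith [hlog w hw]
  have hfib : ∀ (C : Finset (Σ _ : ℕ, ℕ)) (P : ℕ → ℕ → Prop) (b : ℕ → ℝ),
      C ⊆ pairSet T y → (∀ a ∈ C, P a.1 a.2) →
      (∀ w ∈ allGood T, ∀ F : Finset ℕ, (∀ p ∈ F, p.Prime ∧ P w p ∧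
        (((p - 1) * w : ℕ) : ℝ) ≤ y) → (F.card : ℝ) ≤ b w) →
      (C.card : ℝ) ≤ ∑ w ∈ allGood T, b w := by
    intro C P b hC hP hb
    have h1 : C ⊆ (allGood T).sigma fun w =>
        (Nat.primesLE (⌊y / (w : ℝ)⌋₊ + 1)).filter (P w) := fun a ha => by
      obtain ⟨h2, h3⟩ := Finset.mem_sigma.1 (hC ha)
      exact Finset.mem_sigma.2 ⟨h2, Finset.mem_filter.2 ⟨h3, hP a ha⟩⟩
    have h4 := Finset.card_le_card h1
    rw [Finset.card_sigma] at h4
    calc (C.card : ℝ) ≤ ∑ w ∈ allGood T,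
          (((Nat.primesLE (⌊y / (w : ℝ)⌋₊ + 1)).filter (P w)).card : ℝ) := by exact_mod_cast h4
      _ ≤ _ := Finset.sum_le_sum fun w hw => hb w hw _ fun p hp => by
          obtain ⟨hp1, hP'⟩ := Finset.mem_filter.1 hp
          obtain ⟨hp2, hp3⟩ := Nat.mem_primesLE.1 hp1
          exact ⟨hp3, hP', (mem_range_iff (by linarith) (one_le_allGood hw) hp3).1 hp2⟩
  have eB : (B.card : ℝ) ≤ 4 * δ * A T y := by
    refine (hfib B (fun w p => (((p - 1) * w : ℕ) : ℝ) ≤ y / L ^ 2)
      (fun w => y / L * (w : ℝ)⁻¹ * δ) (Finset.filter_subset _ _)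
      (fun a ha => (Finset.mem_filter.1 ha).2) ?_).trans ?_
    · intro w hw F hF
      have hw0 : (0 : ℝ) < w := by exact_mod_cast one_le_allGood hw
      have hk := key w hw
      have hz0 : 0 < y / L ^ 2 / (w : ℝ) := by positivity
      have hz1 : 1 ≤ y / L ^ 2 / (w : ℝ) :=
        (Real.log_nonneg_iff hz0).1 (by linarith)
      refine (card_primes_le (X := y / L ^ 2 / w + 1) (by linarith) F fun p hp => ?_).trans ?_
      · obtain ⟨hpp, hle, -⟩ := hF p hp
        refine ⟨hpp, ?_⟩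
        push_cast [Nat.cast_sub hpp.one_le] at hle
        rw [← le_div_iff₀ hw0] at hle
        linarith
      · have hlX : L / 2 ≤ Real.log (y / L ^ 2 / w + 1) :=
          le_trans hk (Real.log_le_log hz0 (by linarith))
        calc 5 * (y / L ^ 2 / w + 1) / Real.log (y / L ^ 2 / w + 1)
            ≤ 5 * (2 * (y / L ^ 2 / w)) / (L / 2) :=
              div_le_div₀ (by positivity) (by linarith) (by positivity) hlX
          _ = y / L * (w : ℝ)⁻¹ * (20 / L / L) := by field_simp; ring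
          _ ≤ y / L * (w : ℝ)⁻¹ * δ := by
              refine mul_le_mul_of_nonneg_left ?_ (by positivity)
              calc 20 / L / L ≤ 20 / L := div_le_self (by positivity) (by linarith)
                _ ≤ δ := by
                    rw [div_le_iff₀ hL0]
                    have h1 : 20 / δ * δ = 20 := div_mul_cancel₀ _ hδ.ne'
                    nlinarith
    · rw [← Finset.sum_mul, ← Finset.mul_sum, ← invSum]
      calc y / L * invSum (allGood T) * δ = 4 * δ * (y / L * invSum (allGood T) / 4) := by ring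
        _ ≤ _ := mul_le_mul_of_nonneg_left (hAlow y hy) (by positivity)
  have eN : (N.card : ℝ) ≤ 4 * δ * A T y := by
    refine (hfib N (fun w p => ¬ Normal p ∧ y / L ^ 2 < (((p - 1) * w : ℕ) : ℝ))
      _ (Finset.filter_subset _ _) (fun a ha => (Finset.mem_filter.1 ha).2)
      (fun w hw F hF => hab y hy w (one_le_allGood hw) F fun p hp => ?_)).trans ?_
    · obtain ⟨hpp, ⟨hnn, hgt⟩, hle⟩ := hF p hp
      refine ⟨hpp, hnn, hle, ?_⟩
      have hw0 : (0 : ℝ) < w := by exact_mod_cast one_le_allGood hw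
      push_cast [Nat.cast_sub hpp.one_le] at hgt
      rw [← div_lt_iff₀ hw0] at hgt
      have h1 : L / 2 ≤ Real.log p := le_trans (key w hw)
        (Real.log_le_log (by positivity) (by linarith))
      have h2 : (2 : ℝ) ≤ (T : ℝ) ^ 4 := by
        have : (2 : ℝ) ≤ T := by exact_mod_cast hT2
        nlinarith [sq_nonneg ((T : ℝ) ^ 2 - 2)]
      nlinarith [Real.log_nonneg (show (1 : ℝ) ≤ p by exact_mod_cast hpp.one_le)]
    · refine (habt y hy _ (valuesOf_allGood_cells (eps_nonneg T))).trans ?_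
      calc δ * (y / L) ≤ δ * (4 * A T y) := mul_le_mul_of_nonneg_left (herr y hy) hδ.le
        _ = _ := by ring
  have hcard : ((pairSet T y).card : ℝ) ≤ B.card + N.card + S.card := by
    have h := (Finset.card_le_card hsub).trans
      ((Finset.card_union_le _ _).trans (Nat.add_le_add_right (Finset.card_union_le _ _) _))
    exact_mod_cast h
  rw [card_pairSet] at hcard
  linarith

theorem eventually_square_small :
    ∀ᶠ T : ℕ in atTop, ∀ y : ℝ, InRange T y → ∀ w ∈ allGood T,
      (w : ℝ) * w ≤ y / Real.log y ^ 2 := by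
  filter_upwards [log_allGood, eventually_log_large 256] with T hlog hlarge
  intro y hy w hw
  obtain ⟨hL1, -, hy2⟩ := inRange_log hy
  have hL := hlarge y hy
  have hw1 : (1 : ℝ) ≤ w := by exact_mod_cast one_le_allGood hw
  refine (Real.log_le_log_iff (by positivity) (by positivity)).1 ?_
  rw [Real.log_mul (by linarith) (by linarith), Real.log_div (by linarith) (by positivity),
    Real.log_pow]
  push_cast
  have h1 : Real.log (Real.log y) = 2 * Real.log (Real.sqrt (Real.log y)) := by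
    rw [Real.log_sqrt (by linarith)]; ring
  have h2 := Real.log_le_sub_one_of_pos (Real.sqrt_pos.2 (show 0 < Real.log y by linarith))
  have h3 : 16 ≤ Real.sqrt (Real.log y) := Real.le_sqrt_of_sq_le (by linarith)
  nlinarith [Real.mul_self_sqrt (show 0 ≤ Real.log y by linarith), hlog w hw]

include hA hT hP in
theorem lower_bound {η : ℝ} (hη : 0 < η) :
    ∀ᶠ T : ℕ in atTop, ∀ y : ℝ, InRange T y → (1 - η) * A T y ≤ (V y : ℝ) := by
  classical
  set δ := η / 12 with hδdef
  have hδ : 0 < δ := by positivity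
  obtain ⟨T0, hP⟩ := hP
  filter_upwards [pairs_mostly_proper hA hT hδ, eventually_exp_sqrt_le hδ, error_le_A,
    eventually_square_small, Filter.eventually_ge_atTop T0] with T hprop hsqrt herr hsmall hT0
  intro y hy
  obtain ⟨hL1, -, hy2⟩ := inRange_log hy
  set L := Real.log y with hLdef
  have hL0 : 0 < L := lt_of_lt_of_le (Real.exp_pos _) hL1
  set S := (pairSet T y).filter fun a =>
    Normal a.2 ∧ y / L ^ 2 < (((a.2 - 1) * a.1 : ℕ) : ℝ) with hS
  have h1 := hprop y hy S fun a ha h => Finset.mem_filter.2 ⟨ha, h⟩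
  set f : (Σ _ : ℕ, ℕ) → ℕ := fun a => (a.2 - 1) * a.1 with hf
  have himg : S.image f ⊆ totVals y := by
    intro v hv
    obtain ⟨⟨w, p⟩, ha, rfl⟩ := Finset.mem_image.1 hv
    obtain ⟨hmem, hN, hgt⟩ := Finset.mem_filter.1 ha
    obtain ⟨hw, hp⟩ := Finset.mem_sigma.1 hmem
    obtain ⟨hp1, hpp⟩ := Nat.mem_primesLE.1 hp
    obtain ⟨n, hn, hnw⟩ := valuesOf_allGood T w hw
    have hle := (mem_range_iff (by linarith) (one_le_allGood hw) hpp).1 hp1
    refine mem_totVals.2 ⟨hle, p * n, Nat.mul_pos hpp.pos hn.1, ?_⟩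
    have hcop : p.Coprime n := by
      refine (Nat.Prime.coprime_iff_not_dvd hpp).2 fun hdvd => ?_
      have hpn : (p : ℕ) - 1 ≤ w := by
        rw [← hnw, ← Nat.totient_prime hpp]
        exact Nat.le_of_dvd (Nat.totient_pos.2 hn.1) (Nat.totient_dvd_of_dvd hdvd)
      have hw1 : (1 : ℝ) ≤ w := by exact_mod_cast one_le_allGood hw
      have h3 : y / L ^ 2 < (w : ℝ) * w := by
        refine lt_of_lt_of_le hgt ?_
        exact_mod_cast Nat.mul_le_mul_right w hpn
      exact absurd h3 (not_lt.2 (hsmall y hy w hw))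
    rw [Nat.totient_mul hcop, Nat.totient_prime hpp, hnw]
  have hQ := card_le_image_add_collisions S f
  set Q := (S ×ˢ S).filter fun z => z.1 ≠ z.2 ∧ f z.1 = f z.2 with hQdef
  set Q' := Q.image fun z => ((z.1.2, z.1.1), (z.2.2, z.2.1)) with hQ'
  have hQcard : Q'.card = Q.card := by
    refine Finset.card_image_of_injective _ ?_
    rintro ⟨⟨a, b⟩, ⟨c, d⟩⟩ ⟨⟨a', b'⟩, ⟨c', d'⟩⟩ h
    simp only [Prod.mk.injEq] at h
    obtain ⟨⟨rfl, rfl⟩, rfl, rfl⟩ := h
    rfl
  have hQle : (Q'.card : ℝ) ≤ y / L * Real.exp (-Real.sqrt T) := by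
    refine hP T hT0 y hy (allGood T) (valuesOf_allGood T) Q' fun a ha => ?_
    obtain ⟨⟨⟨w, p⟩, ⟨w', p'⟩⟩, hz, rfl⟩ := Finset.mem_image.1 ha
    obtain ⟨hz1, hne, heq⟩ := Finset.mem_filter.1 hz
    obtain ⟨hS1, hS2⟩ := Finset.mem_product.1 hz1
    obtain ⟨hm1, hN1, hgt1⟩ := Finset.mem_filter.1 hS1
    obtain ⟨hm2, hN2, hgt2⟩ := Finset.mem_filter.1 hS2
    obtain ⟨hw, hp⟩ := Finset.mem_sigma.1 hm1
    obtain ⟨hw', hp'⟩ := Finset.mem_sigma.1 hm2
    obtain ⟨hp1, hpp⟩ := Nat.mem_primesLE.1 hp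
    obtain ⟨hp2, hpp'⟩ := Nat.mem_primesLE.1 hp'
    refine ⟨hpp, hN1, hpp', hN2, hw, hw', ?_, heq, hgt1,
      (mem_range_iff (by linarith) (one_le_allGood hw) hpp).1 hp1⟩
    intro hww
    simp only at hww hpp hpp'
    subst hww
    refine hne ?_
    have h0 : p - 1 = p' - 1 :=
      Nat.eq_of_mul_eq_mul_right (one_le_allGood hw) heq
    have : p = p' := by
      have := hpp.one_le; have := hpp'.one_le; omega
    rw [this]
  have h2 : (S.card : ℝ) ≤ (totVals y).card + (Q'.card : ℝ) := by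
    rw [hQcard]
    have := hQ.trans (Nat.add_le_add_right (Finset.card_le_card himg) _)
    exact_mod_cast this
  rw [V_eq_card]
  have h4 : y / L * Real.exp (-Real.sqrt T) ≤ 4 * δ * A T y := by
    calc y / L * Real.exp (-Real.sqrt T) ≤ y / L * δ :=
          mul_le_mul_of_nonneg_left hsqrt (by positivity)
      _ = δ * (y / L) := by ring
      _ ≤ δ * (4 * A T y) := mul_le_mul_of_nonneg_left (herr y hy) hδ.le
      _ = _ := by ring
  have h5 : 12 * δ = η := by rw [hδdef]; ring
  calc (1 - η) * (A T y : ℝ) = A T y - 12 * δ * A T y := by rw [h5]; ring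
    _ ≤ _ := by linarith

end P031.Assembly
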