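import Vale.Agent.P031.Assembly.Classes

/-! The counting function against the good cofactors. -/

open Finset Filter
open scoped Topology

noncomputable section

namespace P031.Assembly

/-- The expected count at level `T`. -/
def A (T : ℕ) (y : ℝ) : ℕ := ∑ w ∈ allGood T, Nat.primeCounting (⌊y / (w : ℝ)⌋₊ + 1)

/-- Pairs `⟨w, p⟩` counted by `A`. -/
def pairSet (T : ℕ) (y : ℝ) : Finset (Σ _ : ℕ, ℕ) :=
  (allGood T).sigma fun w => Nat.primesLE (⌊y / (w : ℝ)⌋₊ + 1)

theorem card_pairSet (T : ℕ) (y : ℝ) : (pairSet T y).card = A T y := by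
  simp [pairSet, A, Finset.card_sigma, Nat.primesLE_card_eq_primeCounting]

theorem one_le_allGood {T w : ℕ} (hw : w ∈ allGood T) : 1 ≤ w := by
  obtain ⟨n, hn, rfl⟩ := valuesOf_allGood T w hw
  exact Nat.totient_pos.2 hn.1

theorem mem_range_iff {p w : ℕ} {y : ℝ} (hy : 0 ≤ y) (hw : 1 ≤ w) (hp : p.Prime) :
    p ≤ ⌊y / (w : ℝ)⌋₊ + 1 ↔ (((p - 1) * w : ℕ) : ℝ) ≤ y := by
  have hw0 : (0 : ℝ) < w := by exact_mod_cast hw
  rw [← tsub_le_iff_right, Nat.le_floor_iff (by positivity), le_div_iff₀ hw0]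
  push_cast
  rfl

theorem log_allGood :
    ∀ᶠ T : ℕ in atTop, ∀ w ∈ allGood T, Real.log w ≤ Real.exp (T : ℝ) / 8 := by
  filter_upwards [eventually_good_log] with T hT w hw
  obtain ⟨n, hn, rfl⟩ := valuesOf_allGood T w hw
  refine le_trans (Real.log_le_log ?_ ?_) (hT n hn)
  · exact_mod_cast Nat.totient_pos.2 hn.1
  · exact_mod_cast Nat.totient_le n

theorem one_le_invSum_allGood : ∀ᶠ T : ℕ in atTop, 1 ≤ invSum (allGood T) := by
  filter_upwards [eventually_mem_allGood, eventually_eps_mul] with T hT he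
  have h1 : 1 ∈ allGood T := by
    have := hT 1 (good_one he.2)
    simpa using this
  calc (1 : ℝ) = invSum {1} := by simp [invSum]
    _ ≤ _ := invSum_mono (Finset.singleton_subset_iff.2 h1)

theorem A_lower : ∀ᶠ T : ℕ in atTop, ∀ y : ℝ, InRange T y →
    y / Real.log y * invSum (allGood T) / 4 ≤ A T y := by
  obtain ⟨Z, hZ2, hZ⟩ := pi_lower
  filter_upwards [log_allGood, eventually_log_large (8 / 7 * Real.log Z)] with T hlog hlarge y hy
  obtain ⟨hL1, -, hy2⟩ := inRange_log hy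
  have hL0 : 0 < Real.log y := lt_of_lt_of_le (Real.exp_pos _) hL1
  rw [A, invSum, Finset.mul_sum, Finset.sum_div]
  push_cast
  refine Finset.sum_le_sum fun w hw => ?_
  have hw1 : (1 : ℝ) ≤ w := by exact_mod_cast one_le_allGood hw
  have hlz : Real.log (y / w) = Real.log y - Real.log w := Real.log_div (by linarith) (by linarith)
  have h1 := hlog w hw
  have h2 := hlarge y hy
  have hwy : 0 < y / (w : ℝ) := by positivity
  have hz : Z ≤ y / w := (Real.log_le_log_iff (by linarith) hwy).1 (by rw [hlz]; linarith)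
  refine le_trans ?_ (hZ _ hz)
  have hlz0 : 0 < Real.log (y / w) := Real.log_pos (by linarith)
  have hlz1 : Real.log (y / w) ≤ Real.log y := by
    rw [hlz]; linarith [Real.log_nonneg hw1]
  calc y / Real.log y * (w : ℝ)⁻¹ / 4 = y / w / (4 * Real.log y) := by field_simp
    _ ≤ y / w / (4 * Real.log (y / w)) := by gcongr

/-- An error that is negligible against `A`. -/
theorem error_le_A : ∀ᶠ T : ℕ in atTop, ∀ y : ℝ, InRange T y →
    y / Real.log y ≤ 4 * A T y := by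
  filter_upwards [A_lower, one_le_invSum_allGood] with T h1 h2 y hy
  obtain ⟨hL1, -, hy2⟩ := inRange_log hy
  have : 0 ≤ y / Real.log y :=
    div_nonneg (by linarith) (le_trans (Real.exp_nonneg _) hL1)
  nlinarith [h1 y hy]

theorem cell_le_of_le {T p : ℕ} {y : ℝ} (hy : InRange T y) (hp : 2 ≤ p) (hpy : (p : ℝ) ≤ y + 1) :
    cell p ≤ T + 2 := by
  obtain ⟨hL1, hL2, hy2⟩ := inRange_log hy
  have hp1 : (1 : ℝ) < p := by exact_mod_cast hp
  have h1 : Real.log p ≤ Real.log 2 + Real.log y := by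
    rw [← Real.log_mul (by norm_num) (by linarith)]
    exact Real.log_le_log (by linarith) (by linarith)
  have h2 : Real.log 2 + Real.log y < Real.exp ((T : ℝ) + 3) := by
    have : Real.exp ((T : ℝ) + 2) * 2 ≤ Real.exp ((T : ℝ) + 3) := by
      rw [show (T : ℝ) + 3 = (T : ℝ) + 2 + 1 by ring, Real.exp_add ((T : ℝ) + 2)]
      exact mul_le_mul_of_nonneg_left (by linarith [Real.exp_one_gt_d9]) (Real.exp_nonneg _)
    have h3 : Real.log 2 ≤ Real.exp ((T : ℝ) + 2) := by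
      linarith [Real.log_two_lt_d9, Real.one_le_exp (show (0 : ℝ) ≤ (T : ℝ) + 2 by positivity)]
    linarith
  have h4 : Real.log (Real.log p) < (T : ℝ) + 3 :=
    (Real.log_lt_iff_lt_exp (Real.log_pos hp1)).2 (by linarith)
  exact Nat.lt_succ_iff.1 ((Nat.floor_lt' (by omega)).2 (by push_cast; linarith))

/-- A representation `v = (p - 1) φ(n)` with `p` large. -/
def Rep (T : ℕ) (y : ℝ) (v p n : ℕ) : Prop :=
  p.Prime ∧ Real.log y ≤ (T : ℝ) ^ 4 * Real.log p ∧ 0 < n ∧ v = (p - 1) * Nat.totient n ∧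
    CellsLe n (T + 2) ∧ (∀ q ∈ n.primeFactors, q < p) ∧ ((p * n : ℕ) : ℝ) ≤ y * (4 * Real.log y + 20)

theorem decompose {T : ℕ} {y : ℝ} (hy : InRange T y) (hT : 1 ≤ T) {v : ℕ} (hv : v ∈ totVals y) :
    (∃ n : ℕ, n ≠ 0 ∧ Nat.totient n = v ∧ (v : ℝ) ≤ y ∧
        ∀ q ∈ n.primeFactors, (T : ℝ) ^ 4 * Real.log q < Real.log y) ∨
      (0 < v ∧ (v : ℝ) ≤ y ∧
        ∃ p : ℕ, p.Prime ∧ Real.log y ≤ (T : ℝ) ^ 4 * Real.log p ∧ p * (p - 1) ∣ v) ∨
      ∃ p n : ℕ, Rep T y v p n := by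
  obtain ⟨hL1, -, hy2⟩ := inRange_log hy
  have hL2 : 2 ≤ Real.log y := by
    have : (1 : ℝ) ≤ T := by exact_mod_cast hT
    linarith [Real.add_one_le_exp (T : ℝ)]
  obtain ⟨hvy, n, hn, rfl⟩ := mem_totVals.1 hv
  by_cases hs : ∀ q ∈ n.primeFactors, (T : ℝ) ^ 4 * Real.log q < Real.log y
  · exact Or.inl ⟨n, by omega, rfl, hvy, hs⟩
  push Not at hs
  obtain ⟨q, hq, hqlog⟩ := hs
  have hne : n.primeFactors.Nonempty := ⟨q, hq⟩
  set p := n.primeFactors.max' hne with hp
  have hpmem : p ∈ n.primeFactors := Finset.max'_mem _ hne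
  have hpp := Nat.prime_of_mem_primeFactors hpmem
  have hplog : Real.log y ≤ (T : ℝ) ^ 4 * Real.log p := by
    refine hqlog.trans (mul_le_mul_of_nonneg_left (Real.log_le_log ?_ ?_) (by positivity))
    · exact_mod_cast (Nat.prime_of_mem_primeFactors hq).pos
    · exact_mod_cast Finset.le_max' _ q hq
  have hvpos : 0 < Nat.totient n := Nat.totient_pos.2 (by omega)
  obtain ⟨m, hm⟩ := Nat.dvd_of_mem_primeFactors hpmem
  have hm0 : 0 < m := by
    rcases Nat.eq_zero_or_pos m with rfl | h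
    · simp at hm; omega
    · exact h
  by_cases hpm : p ∣ m
  · refine Or.inr (Or.inl ⟨hvpos, hvy, p, hpp, hplog, ?_⟩)
    have h2 : p ^ 2 ∣ n := by
      rw [hm, sq]
      exact Nat.mul_dvd_mul_left p hpm
    have h3 : Nat.totient (p ^ 2) = p * (p - 1) := by
      rw [Nat.totient_prime_pow hpp (by norm_num)]
      simp
    rw [← h3]
    exact Nat.totient_dvd_of_dvd h2
  · refine Or.inr (Or.inr ⟨p, m, hpp, hplog, hm0, ?_, ?_, ?_, ?_⟩)
    · rw [hm, Nat.totient_mul ((Nat.Prime.coprime_iff_not_dvd hpp).2 hpm),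
        Nat.totient_prime hpp]
    · intro r hr
      have hr1 : r ∈ n.primeFactors := by
        rw [hm]
        exact Nat.primeFactors_mono (dvd_mul_left m p) (Nat.mul_ne_zero hpp.ne_zero hm0.ne') hr
      have hle : r ≤ p := Finset.le_max' _ r hr1
      refine cell_le_of_le hy (Nat.prime_of_mem_primeFactors hr).two_le ?_
      have h5 : (p - 1 : ℕ) ≤ Nat.totient n := by
        refine Nat.le_of_dvd hvpos ?_
        rw [← Nat.totient_prime hpp]
        exact Nat.totient_dvd_of_dvd (Nat.dvd_of_mem_primeFactors hpmem)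
      have h6 : (r : ℝ) ≤ (Nat.totient n : ℝ) + 1 := by
        exact_mod_cast (show r ≤ Nat.totient n + 1 by omega)
      linarith
    · intro r hr
      have hr1 : r ∈ n.primeFactors := by
        rw [hm]
        exact Nat.primeFactors_mono (dvd_mul_left m p) (Nat.mul_ne_zero hpp.ne_zero hm0.ne') hr
      refine lt_of_le_of_ne (Finset.le_max' _ r hr1) ?_
      rintro rfl
      exact hpm (Nat.dvd_of_mem_primeFactors hr)
    · rw [← hm]
      exact preimage_bound (by omega) (by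
        have : y = Real.exp (Real.log y) := (Real.exp_log (by linarith)).symm
        linarith [Real.add_one_le_exp (Real.log y)]) hvy

theorem card_le_sum {y : ℝ} (F : Finset ℕ) (W : Finset ℕ) (hy : 0 ≤ y)
    (P : ℕ → Prop) (hW : ∀ v ∈ F, ∃ w ∈ W, 1 ≤ w ∧ ∃ p : ℕ, p.Prime ∧ P p ∧
      v = (p - 1) * w ∧ (v : ℝ) ≤ y) (B : ℕ → ℝ)
    (hB : ∀ w ∈ W, 1 ≤ w → ∀ S : Finset ℕ, (∀ p ∈ S, p.Prime ∧ P p ∧
      (((p - 1) * w : ℕ) : ℝ) ≤ y) → (S.card : ℝ) ≤ B w)
    (hW1 : ∀ w ∈ W, 1 ≤ w) :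
    (F.card : ℝ) ≤ ∑ w ∈ W, B w := by
  classical
  have hsub : F ⊆ W.biUnion fun w =>
      ((Nat.primesLE (⌊y / (w : ℝ)⌋₊ + 1)).filter P).image fun p => (p - 1) * w := by
    intro v hv
    obtain ⟨w, hw, hw1, p, hp, hP, rfl, hle⟩ := hW v hv
    exact Finset.mem_biUnion.2 ⟨w, hw, Finset.mem_image.2 ⟨p, Finset.mem_filter.2
      ⟨Nat.mem_primesLE.2 ⟨(mem_range_iff hy hw1 hp).2 hle, hp⟩, hP⟩, rfl⟩⟩
  calc (F.card : ℝ) ≤ ∑ w ∈ W,
        (((Nat.primesLE (⌊y / (w : ℝ)⌋₊ + 1)).filter P).card : ℝ) := by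
        exact_mod_cast (Finset.card_le_card hsub).trans
          (Finset.card_biUnion_le.trans (Finset.sum_le_sum fun w _ => Finset.card_image_le))
    _ ≤ _ := Finset.sum_le_sum fun w hw => hB w hw (hW1 w hw) _ fun p hp => by
        obtain ⟨hp1, hP⟩ := Finset.mem_filter.1 hp
        obtain ⟨hp2, hp3⟩ := Nat.mem_primesLE.1 hp1
        exact ⟨hp3, hP, (mem_range_iff hy (hW1 w hw) hp3).1 hp2⟩

variable (hS : SmoothStatement) (hA : AbnormalStatement) (hT : TotalStatement)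
  (hE : ExceptionalStatement) (hV : ViolStatement) (hP : PairCountStatement)
  (hR : RegularityStatement)

include hT in
theorem abnormal_total {δ : ℝ} (hδ : 0 < δ) :
    ∀ᶠ T : ℕ in atTop, ∀ y : ℝ, InRange T y → ∀ W : Finset ℕ,
      ValuesOf (fun n => 0 < n ∧ CellsLe n (T + 2)) W →
      ∑ w ∈ W, y / Real.log y / w *
        (34 * ((T : ℝ) ^ 4 * Real.exp (-((T : ℝ) / 3) ^ ((1 : ℝ) / 3)))) ≤
        δ * (y / Real.log y) := by
  obtain ⟨C, hC, hT⟩ := hT
  filter_upwards [eventually_exp_le (4 + 4 * C) 34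
    (show (0 : ℝ) < (1 / 3) ^ ((1 : ℝ) / 3) by positivity)
    (show (0 : ℝ) < 1 / 3 by norm_num) hδ, Filter.eventually_ge_atTop 3] with T hdec hT3 y hy W hW
  obtain ⟨hL1, -, hy2⟩ := inRange_log hy
  have hyl : 0 ≤ y / Real.log y := div_nonneg (by linarith) (le_trans (Real.exp_nonneg _) hL1)
  have h1 := hT (T + 2) W hW
  push_cast at h1
  have hTr : (3 : ℝ) ≤ T := by exact_mod_cast hT3
  have hl := one_le_logT T
  have h2 : Real.log ((T : ℝ) + 2 + 3) ≤ 2 * Real.log ((T : ℝ) + 3) := by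
    rw [← Real.log_rpow (by linarith), Real.rpow_two]
    exact Real.log_le_log (by linarith) (by nlinarith)
  have h3 : Real.log ((T : ℝ) + 2 + 3) ^ 2 ≤ 4 * Real.log ((T : ℝ) + 3) ^ 2 := by
    have : 0 ≤ Real.log ((T : ℝ) + 2 + 3) := Real.log_nonneg (by linarith)
    nlinarith
  have hsum : ∑ w ∈ W, y / Real.log y / w *
      (34 * ((T : ℝ) ^ 4 * Real.exp (-((T : ℝ) / 3) ^ ((1 : ℝ) / 3)))) =
      (y / Real.log y) *
        (34 * ((T : ℝ) ^ 4 * Real.exp (-((T : ℝ) / 3) ^ ((1 : ℝ) / 3)) * invSum W)) := by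
    rw [invSum, Finset.mul_sum, Finset.mul_sum, Finset.mul_sum]
    exact Finset.sum_congr rfl fun w _ => by rw [div_eq_mul_inv _ (w : ℝ)]; ring
  rw [hsum, mul_comm δ]
  refine mul_le_mul_of_nonneg_left (le_trans ?_ hdec) hyl
  refine mul_le_mul_of_nonneg_left ?_ (by norm_num)
  have h4 := pow_le_exp_logT T 4
  push_cast at h4
  have h5 : ((T : ℝ) / 3) ^ ((1 : ℝ) / 3) = (1 / 3) ^ ((1 : ℝ) / 3) * (T : ℝ) ^ ((1 : ℝ) / 3) := by
    rw [← Real.mul_rpow (by norm_num) (by linarith)]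
    ring_nf
  calc (T : ℝ) ^ 4 * Real.exp (-((T : ℝ) / 3) ^ ((1 : ℝ) / 3)) * invSum W
      ≤ Real.exp (4 * Real.log ((T : ℝ) + 3) ^ 2) *
          Real.exp (-((T : ℝ) / 3) ^ ((1 : ℝ) / 3)) *
          Real.exp (4 * C * Real.log ((T : ℝ) + 3) ^ 2) := by
        refine mul_le_mul (mul_le_mul_of_nonneg_right
          ((pow_le_pow_left₀ (by linarith) (by linarith) 4).trans h4) (Real.exp_nonneg _))
          (h1.trans (Real.exp_le_exp.2 ?_)) (invSum_nonneg _) (by positivity)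
        nlinarith
    _ = _ := by rw [h5, ← Real.exp_add, ← Real.exp_add]; ring_nf

theorem eventually_pow_exp_decay {δ : ℝ} (hδ : 0 < δ) :
    ∀ᶠ T : ℕ in atTop, 10 * ((T : ℝ) ^ 4 * Real.exp (-(T : ℝ) ^ ((1 : ℝ) / 12))) ≤ δ := by
  filter_upwards [eventually_exp_le 4 10 (show (0 : ℝ) < 1 by norm_num)
    (show (0 : ℝ) < 1 / 12 by norm_num) hδ] with T hdec
  refine le_trans ?_ hdec
  have h4 := pow_le_exp_logT T 4
  push_cast at h4
  have h0 : (0 : ℝ) ≤ T := Nat.cast_nonneg T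
  rw [sub_eq_add_neg, Real.exp_add, one_mul]
  exact mul_le_mul_of_nonneg_left (mul_le_mul_of_nonneg_right
    ((pow_le_pow_left₀ h0 (by linarith) 4).trans h4) (Real.exp_nonneg _)) (by norm_num)

theorem eventually_exp_sqrt_le {δ : ℝ} (hδ : 0 < δ) :
    ∀ᶠ T : ℕ in atTop, Real.exp (-Real.sqrt T) ≤ δ := by
  filter_upwards [eventually_exp_le 0 1 (show (0 : ℝ) < 1 by norm_num)
    (show (0 : ℝ) < 1 / 2 by norm_num) hδ] with T hdec
  refine le_trans (le_of_eq ?_) hdec
  rw [Real.sqrt_eq_rpow]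
  ring_nf

/-- The possible cofactor values. -/
def cofValues (y : ℝ) (P : ℕ → Prop) : Finset ℕ := by
  classical
  exact (Finset.range (⌊y⌋₊ + 1)).filter fun w => ∃ n : ℕ, (0 < n ∧ P n) ∧ Nat.totient n = w

theorem cofValues_spec {y : ℝ} {P : ℕ → Prop} :
    ValuesOf (fun n => 0 < n ∧ P n) (cofValues y P) ∧ ∀ w ∈ cofValues y P, 1 ≤ w := by
  classical
  refine ⟨fun w hw => (Finset.mem_filter.1 hw).2, fun w hw => ?_⟩
  obtain ⟨-, n, ⟨hn, -⟩, rfl⟩ := Finset.mem_filter.1 hw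
  exact Nat.totient_pos.2 hn

theorem mem_cofValues {y : ℝ} {P : ℕ → Prop} {n : ℕ} (hn : 0 < n) (hP : P n)
    (hy : (Nat.totient n : ℝ) ≤ y) : Nat.totient n ∈ cofValues y P := by
  classical
  exact Finset.mem_filter.2
    ⟨Finset.mem_range.2 (Nat.lt_succ_of_le (Nat.le_floor hy)), n, ⟨hn, hP⟩, rfl⟩

/-- `v = (p - 1) w` with `w` in `W` and `p` subject to `Q`. -/
def Form (y : ℝ) (W : Finset ℕ) (Q : ℕ → Prop) (v : ℕ) : Prop :=
  ∃ w ∈ W, 1 ≤ w ∧ ∃ p : ℕ, p.Prime ∧ Q p ∧ v = (p - 1) * w ∧ (v : ℝ) ≤ y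

/-- A totient with a smooth preimage. -/
def SmoothV (T : ℕ) (y : ℝ) (v : ℕ) : Prop :=
  ∃ n : ℕ, n ≠ 0 ∧ Nat.totient n = v ∧ (v : ℝ) ≤ y ∧
    ∀ q ∈ n.primeFactors, (T : ℝ) ^ 4 * Real.log q < Real.log y

/-- A totient with a large repeated prime. -/
def SquareV (T : ℕ) (y : ℝ) (v : ℕ) : Prop :=
  0 < v ∧ (v : ℝ) ≤ y ∧
    ∃ p : ℕ, p.Prime ∧ Real.log y ≤ (T : ℝ) ^ 4 * Real.log p ∧ p * (p - 1) ∣ v

/-- A totient with a too costly cofactor. -/
def ViolV (T : ℕ) (y : ℝ) (v : ℕ) : Prop :=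
  (v : ℝ) ≤ y ∧ ∃ p n : ℕ, p.Prime ∧ Normal p ∧
    Real.log y ≤ (T : ℝ) ^ 4 * Real.log p ∧
    0 < n ∧ CellsLe n (T + 2) ∧ ¬ Exceptional T n ∧ (1 + eps T) * T < topG T n ∧
    v = (p - 1) * Nat.totient n

/-- The cofactor bound in the boundary class. -/
theorem eventually_log_cofactor :
    ∀ᶠ T : ℕ in atTop, ∀ y : ℝ, InRange T y → ∀ v p n : ℕ, Rep T y v p n →
      ¬ Exceptional T n → topG T n ≤ (1 + eps T) * T →
        Real.log n ≤ 3 / 5 * Real.log y := by
  filter_upwards [eventually_mid_log, eventually_log_large 2000] with T hmid hlarge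
  intro y hy v p n hrep hX hG
  obtain ⟨hp, hplog, hn, hveq, hcells, hlt, hsize⟩ := hrep
  obtain ⟨hL1, -, hy2⟩ := inRange_log hy
  set L := Real.log y with hLdef
  have hL : 2000 ≤ L := hlarge y hy
  set B := (L + Real.log (4 * L + 20)) / 2 with hB
  have hB0 : 0 ≤ B := by
    have := Real.log_nonneg (show 1 ≤ 4 * L + 20 by linarith)
    positivity
  have hq : ∀ q ∈ n.primeFactors, Real.log q ≤ B := by
    intro q hq
    have hq0 : (1 : ℝ) ≤ q := by exact_mod_cast (Nat.prime_of_mem_primeFactors hq).one_le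
    have h1 : ((q * q : ℕ) : ℝ) ≤ y * (4 * L + 20) := by
      refine le_trans ?_ hsize
      exact_mod_cast Nat.mul_le_mul (hlt q hq).le
        (Nat.le_of_dvd hn (Nat.dvd_of_mem_primeFactors hq))
    push_cast at h1
    have h2 := Real.log_le_log (by positivity) h1
    rw [Real.log_mul (by positivity) (by positivity),
      Real.log_mul (by linarith) (by linarith)] at h2
    linarith
  refine (hmid n hn hX hG B hB0 hq).trans ?_
  have h3 := Real.log_le_sub_one_of_pos (show 0 < (4 * L + 20) / 128 by linarith)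
  rw [Real.log_div (by linarith) (by norm_num)] at h3
  have h4 : Real.log (128 : ℝ) = 7 * Real.log 2 := by
    rw [show (128 : ℝ) = 2 ^ 7 by norm_num, Real.log_pow]
    norm_num
  linarith [Real.log_two_lt_d9, Real.exp_pos (T : ℝ)]

/-- The classes covering all totient values. -/
theorem eventually_cover :
    ∀ᶠ T : ℕ in atTop, ∀ y : ℝ, InRange T y → ∀ v ∈ totVals y,
      SmoothV T y v ∨ SquareV T y v ∨
      Form y (cofValues y fun n => CellsLe n (T + 2))
        (fun p => ¬ Normal p ∧ Real.log y ≤ (T : ℝ) ^ 4 * Real.log p) v ∨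
      Form y (cofValues y fun n => CellsLe n (T + 2) ∧ Exceptional T n)
        (fun p => Real.log y ≤ (T : ℝ) ^ 4 * Real.log p) v ∨
      ViolV T y v ∨
      Form y (cofValues y fun n => Mid T n ∧ Real.log n ≤ 3 / 5 * Real.log y) (fun _ => True) v ∨
      v ∈ (pairSet T y).image fun x => (x.2 - 1) * x.1 := by
  filter_upwards [eventually_mem_allGood, eventually_log_cofactor,
    Filter.eventually_ge_atTop 1] with T hgood hlogn hT1
  intro y hy v hv
  have hvy := (mem_totVals.1 hv).1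
  obtain ⟨-, -, hy2⟩ := inRange_log hy
  rcases decompose hy hT1 hv with h | h | ⟨p, n, hrep⟩
  · exact Or.inl h
  · exact Or.inr (Or.inl h)
  obtain ⟨hp, hplog, hn, hveq, hcells, hlt, hsize⟩ := hrep
  have hw1 : 1 ≤ Nat.totient n := Nat.totient_pos.2 hn
  have hwy : (Nat.totient n : ℝ) ≤ y := by
    refine le_trans ?_ hvy
    have : Nat.totient n ≤ v := by
      rw [hveq]
      exact Nat.le_mul_of_pos_left _ (by have := hp.two_le; omega)
    exact_mod_cast this
  refine Or.inr (Or.inr ?_)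
  by_cases hN : Normal p
  swap
  · exact Or.inl ⟨_, mem_cofValues hn hcells hwy, hw1, p, hp, ⟨hN, hplog⟩, hveq, hvy⟩
  refine Or.inr ?_
  by_cases hX : Exceptional T n
  · exact Or.inl ⟨_, mem_cofValues hn ⟨hcells, hX⟩ hwy, hw1, p, hp, hplog, hveq, hvy⟩
  refine Or.inr ?_
  by_cases hG : (1 + eps T) * T < topG T n
  · exact Or.inl ⟨hvy, p, n, hp, hN, hplog, hn, hcells, hX, hG, hveq⟩
  push Not at hG
  refine Or.inr ?_
  by_cases hg : Good T n
  · refine Or.inr (Finset.mem_image.2 ⟨⟨Nat.totient n, p⟩, Finset.mem_sigma.2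
      ⟨hgood n hg, Nat.mem_primesLE.2 ⟨(mem_range_iff (by linarith) hw1 hp).2
        (by rw [← hveq]; exact hvy), hp⟩⟩, hveq.symm⟩)
  · have hM : Mid T n := by
      refine ⟨hn, hcells, hX, hG, ?_⟩
      by_contra hc
      push Not at hc
      exact hg ⟨hn, hX, hc.1, hc.2⟩
    have hl := hlogn y hy v p n ⟨hp, hplog, hn, hveq, hcells, hlt, hsize⟩ hX hG
    exact Or.inl ⟨_, mem_cofValues hn ⟨hM, hl⟩ hwy, hw1, p, hp, trivial, hveq, hvy⟩

include hR in
theorem count_mid {δ : ℝ} (hδ : 0 < δ) :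
    ∀ᶠ T : ℕ in atTop, ∀ y : ℝ, InRange T y → ∀ F : Finset ℕ,
      (∀ v ∈ F, Form y (cofValues y fun n => Mid T n ∧ Real.log n ≤ 3 / 5 * Real.log y)
        (fun _ => True) v) → (F.card : ℝ) ≤ 120 * δ * A T y := by
  obtain ⟨T0R, hR⟩ := hR δ hδ
  filter_upwards [A_lower, eventually_mem_allGood, Filter.eventually_ge_atTop T0R]
    with T hAlow hgood hTR
  intro y hy F hF
  obtain ⟨hL1, -, hy2⟩ := inRange_log hy
  set L := Real.log y with hLdef
  have hL0 : 0 < L := lt_of_lt_of_le (Real.exp_pos _) hL1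
  set W := cofValues y fun n => Mid T n ∧ Real.log n ≤ 3 / 5 * L with hW
  refine (card_le_sum F W (by linarith) _ hF
    (fun w => 30 * (y / L) * (w : ℝ)⁻¹) ?_ cofValues_spec.2).trans ?_
  · intro w hw hw1 S hS'
    obtain ⟨n, ⟨hn, -, hlogn⟩, hphi⟩ := cofValues_spec.1 w hw
    have hwn : Real.log w ≤ 3 / 5 * L := by
      refine le_trans (Real.log_le_log (by exact_mod_cast hw1) ?_) hlogn
      rw [← hphi]
      exact_mod_cast Nat.totient_le n
    have hw0 : (0 : ℝ) < w := by exact_mod_cast hw1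
    have hz : Real.log (y / w) = L - Real.log w := Real.log_div (by linarith) (by linarith)
    have hz1 : (1 : ℝ) ≤ y / w := by
      refine (Real.log_nonneg_iff (by positivity)).1 ?_
      rw [hz]; linarith
    refine (card_primes_le (X := y / w + 1) (by linarith) S fun p hp => ?_).trans ?_
    · obtain ⟨hpp, -, hle⟩ := hS' p hp
      refine ⟨hpp, ?_⟩
      push_cast [Nat.cast_sub hpp.one_le] at hle
      rw [← le_div_iff₀ hw0] at hle
      linarith
    · have hlX : 2 / 5 * L ≤ Real.log (y / w + 1) := by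
        refine le_trans ?_ (Real.log_le_log (by linarith) (show y / w ≤ y / w + 1 by linarith))
        rw [hz]; linarith
      calc 5 * (y / w + 1) / Real.log (y / w + 1) ≤ 5 * (2 * (y / w)) / (2 / 5 * L) :=
            div_le_div₀ (by positivity) (by linarith) (by positivity) hlX
        _ = 25 * (y / L) * (w : ℝ)⁻¹ := by field_simp; ring
        _ ≤ 30 * (y / L) * (w : ℝ)⁻¹ := by gcongr; norm_num
  · obtain ⟨G, hG1, hG2⟩ := hR T hTR W fun w hw => by
      obtain ⟨n, ⟨-, hn, -⟩, h⟩ := cofValues_spec.1 w hw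
      exact ⟨n, hn, h⟩
    have hGsub : G ⊆ allGood T := fun w hw => by
      obtain ⟨n, hn, rfl⟩ := hG1 w hw
      exact hgood n hn
    rw [← Finset.mul_sum, ← invSum]
    calc 30 * (y / L) * invSum W ≤ 30 * (y / L) * (δ * invSum (allGood T)) := by
          refine mul_le_mul_of_nonneg_left (hG2.trans ?_) (by positivity)
          exact mul_le_mul_of_nonneg_left (invSum_mono hGsub) hδ.le
      _ = 120 * δ * (y / L * invSum (allGood T) / 4) := by ring
      _ ≤ _ := mul_le_mul_of_nonneg_left (hAlow y hy) (by positivity)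

include hE in
theorem count_exceptional {δ : ℝ} (hδ : 0 < δ) :
    ∀ᶠ T : ℕ in atTop, ∀ y : ℝ, InRange T y → ∀ F : Finset ℕ,
      (∀ v ∈ F, Form y (cofValues y fun n => CellsLe n (T + 2) ∧ Exceptional T n)
        (fun p => Real.log y ≤ (T : ℝ) ^ 4 * Real.log p) v) →
      (F.card : ℝ) ≤ δ * (y / Real.log y) := by
  obtain ⟨T0E, hE⟩ := hE
  filter_upwards [eventually_pow_exp_decay hδ, Filter.eventually_ge_atTop (max T0E 1)]
    with T hpow hTT
  intro y hy F hF
  obtain ⟨hL1, -, hy2⟩ := inRange_log hy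
  set L := Real.log y with hLdef
  have hL0 : 0 < L := lt_of_lt_of_le (Real.exp_pos _) hL1
  have hT1 : (1 : ℝ) ≤ T := by exact_mod_cast le_trans (le_max_right _ _) hTT
  have hT4 : (0 : ℝ) < (T : ℝ) ^ 4 := by positivity
  set W := cofValues y fun n => CellsLe n (T + 2) ∧ Exceptional T n with hW
  refine (card_le_sum F W (by linarith) _ hF
    (fun w => 10 * (y / w) / (L / (T : ℝ) ^ 4))
    (fun w _ hw1 S hS' => count_primes (by linarith) hw1 (by positivity) S fun p hp =>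
      ⟨(hS' p hp).1, (hS' p hp).2.2, by
        rw [div_le_iff₀ hT4]; linarith [(hS' p hp).2.1]⟩)
    cofValues_spec.2).trans ?_
  have hsum := hE T (le_trans (le_max_left _ _) hTT) W fun w hw => by
    obtain ⟨n, ⟨h0, h1, h2⟩, h3⟩ := cofValues_spec.1 w hw
    exact ⟨n, ⟨h0, h1, h2⟩, h3⟩
  calc ∑ w ∈ W, 10 * (y / w) / (L / (T : ℝ) ^ 4)
      = y / L * (10 * ((T : ℝ) ^ 4 * invSum W)) := by
        rw [invSum, Finset.mul_sum, Finset.mul_sum, Finset.mul_sum]
        exact Finset.sum_congr rfl fun w _ => by field_simp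
    _ ≤ y / L * δ := by
        refine mul_le_mul_of_nonneg_left (le_trans ?_ hpow) (by positivity)
        exact mul_le_mul_of_nonneg_left (mul_le_mul_of_nonneg_left hsum hT4.le) (by norm_num)
    _ = _ := mul_comm _ _

include hS hA hT hE hV hR in
theorem upper_bound {η : ℝ} (hη : 0 < η) :
    ∀ᶠ T : ℕ in atTop, ∀ y : ℝ, InRange T y → (V y : ℝ) ≤ (1 + η) * A T y := by
  classical
  set δ := η / 200 with hδdef
  have hδ : 0 < δ := by positivity
  obtain ⟨T0V, hV⟩ := hV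
  filter_upwards [count_smooth hS hδ, count_square hδ, count_abnormal hA, abnormal_total hT hδ,
    count_exceptional hE hδ, count_mid hR hδ, eventually_exp_sqrt_le hδ, error_le_A,
    eventually_cover, Filter.eventually_ge_atTop T0V]
    with T hsm hsq hab habt hexc hmid hsqrt herr hcover hTV
  intro y hy
  obtain ⟨hL1, -, hy2⟩ := inRange_log hy
  set L := Real.log y with hLdef
  have hL0 : 0 < L := lt_of_lt_of_le (Real.exp_pos _) hL1
  set E := totVals y with hEdef
  set F1 := E.filter (SmoothV T y) with hF1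
  set F2 := E.filter (SquareV T y) with hF2
  set F3 := E.filter (Form y (cofValues y fun n => CellsLe n (T + 2))
    fun p => ¬ Normal p ∧ Real.log y ≤ (T : ℝ) ^ 4 * Real.log p) with hF3
  set F4 := E.filter (Form y (cofValues y fun n => CellsLe n (T + 2) ∧ Exceptional T n)
    fun p => Real.log y ≤ (T : ℝ) ^ 4 * Real.log p) with hF4
  set F5 := E.filter (ViolV T y) with hF5
  set F6 := E.filter (Form y (cofValues y fun n => Mid T n ∧ Real.log n ≤ 3 / 5 * Real.log y)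
    fun _ => True) with hF6
  set F7 := (pairSet T y).image fun x => (x.2 - 1) * x.1 with hF7
  have hsub : E ⊆ F1 ∪ F2 ∪ F3 ∪ F4 ∪ F5 ∪ F6 ∪ F7 := fun v hv => by
    simp only [hF1, hF2, hF3, hF4, hF5, hF6, Finset.mem_union, Finset.mem_filter]
    rcases hcover y hy v hv with h | h | h | h | h | h | h <;> simp [hv, h, hF7]
  have e1 : (F1.card : ℝ) ≤ δ * (y / L) := hsm y hy F1 fun v hv => (Finset.mem_filter.1 hv).2
  have e2 : (F2.card : ℝ) ≤ δ * (y / L) := hsq y hy F2 fun v hv => (Finset.mem_filter.1 hv).2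
  have e3 : (F3.card : ℝ) ≤ δ * (y / L) :=
    (card_le_sum F3 _ (by linarith) _ (fun v hv => (Finset.mem_filter.1 hv).2) _
      (fun w _ hw1 S hS' => hab y hy w hw1 S fun p hp =>
        ⟨(hS' p hp).1, (hS' p hp).2.1.1, (hS' p hp).2.2, (hS' p hp).2.1.2⟩)
      cofValues_spec.2).trans (habt y hy _ cofValues_spec.1)
  have e4 : (F4.card : ℝ) ≤ δ * (y / L) := hexc y hy F4 fun v hv => (Finset.mem_filter.1 hv).2
  have e5 : (F5.card : ℝ) ≤ δ * (y / L) :=
    (hV T hTV y hy F5 fun v hv => (Finset.mem_filter.1 hv).2).trans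
      (by rw [mul_comm δ]; exact mul_le_mul_of_nonneg_left hsqrt (by positivity))
  have e6 : (F6.card : ℝ) ≤ 120 * δ * A T y := hmid y hy F6 fun v hv => (Finset.mem_filter.1 hv).2
  have e7 : (F7.card : ℝ) ≤ A T y := by
    rw [← card_pairSet]
    exact_mod_cast Finset.card_image_le
  have hcard : ((E.card : ℕ) : ℝ) ≤ F1.card + F2.card + F3.card + F4.card + F5.card + F6.card +
      F7.card := by
    have h := Finset.card_le_card hsub
    have h1 := Finset.card_union_le (F1 ∪ F2 ∪ F3 ∪ F4 ∪ F5 ∪ F6) F7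
    have h2 := Finset.card_union_le (F1 ∪ F2 ∪ F3 ∪ F4 ∪ F5) F6
    have h3 := Finset.card_union_le (F1 ∪ F2 ∪ F3 ∪ F4) F5
    have h4 := Finset.card_union_le (F1 ∪ F2 ∪ F3) F4
    have h5 := Finset.card_union_le (F1 ∪ F2) F3
    have h6 := Finset.card_union_le F1 F2
    exact_mod_cast (show E.card ≤ F1.card + F2.card + F3.card + F4.card + F5.card + F6.card +
      F7.card by omega)
  rw [V_eq_card, ← hEdef]
  have h5 : δ * (y / L) ≤ 4 * δ * A T y := by
    calc δ * (y / L) ≤ δ * (4 * A T y) := mul_le_mul_of_nonneg_left (herr y hy) hδ.le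
      _ = _ := by ring
  have hA0 : (0 : ℝ) ≤ A T y := Nat.cast_nonneg _
  have hδ' : 140 * δ * A T y ≤ η * A T y :=
    mul_le_mul_of_nonneg_right (by rw [hδdef]; linarith) hA0
  nlinarith

end P031.Assembly
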